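import Vale.Agent.P354I.Defs
import Vale.Agent.P354I.Core
import Vale.Agent.P354J.Defs

/-!
The kick at the level of the frame: the input of block B8 from B9 and B4.
-/

open scoped ContDiff
open MeasureTheory Set Filter Topology

noncomputable section

namespace Vale.Agent.P354D

open Vale.Agent.P354H (X3 pdl)
open Vale.Agent.P354C (Ix)
open Vale.Agent.P354I (Dat IsData pm kerr rm rp r2)
open Vale.Agent.P354J (Ud)

/-- The side: the sign of x, and the component of the curvature which is kicked. -/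
def sgn (b : Bool) : ℝ := bif b then 1 else -1
def cpt (b : Bool) : Ix := bif b then .a1 else .ab1

/-- The initial values u' are a kick of u of size A at sgn b * x in (R, R + 1): nothing changes
for sgn b * x ≤ R - 8, the angular derivatives of the change are at most Λ A for
sgn b * x ≤ R + 2, and the kicked component changes by at least A on a third of the window. -/
structure IsKick (b : Bool) (Λ R A : ℝ) (u u' : X3 → Ix → ℝ) : Prop where
  zero : ∀ z : X3, sgn b * z.1 ≤ R - 8 → u' z = u z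
  bound : ∀ i (α : List (Fin 3)), α.length ≤ 4 → (0 : Fin 3) ∉ α → ∀ z : X3,
    sgn b * z.1 ≤ R + 2 → r2 z ≤ 16 → |pdl α (fun y => u' y i - u y i) z| ≤ Λ * A
  low : 1 / 3 ≤ volume {w ∈ Ioo R (R + 1) | ∀ y : ℝ × ℝ, y.1 ^ 2 + y.2 ^ 2 ≤ 2 →
    A ≤ |u' (sgn b * w, y) (cpt b) - u (sgn b * w, y) (cpt b)|}

/-- KICK. The constant Λ does not depend on r0. -/
def KICK : Prop :=
  ∀ M a s κ : ℝ, a ≠ 0 → |a| < M → 1 < s → 0 < κ → ∃ Λ : ℝ, ∃ μ > 0, ∀ ρ ∈ Ioo 0 μ,
    IsData M a (rm M a + ρ) s (kerr M a (rm M a + ρ)) → rm M a + ρ < rp M a →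
    ∃ m, ∃ η > 0, ∀ d, IsData M a (rm M a + ρ) s d →
      pm s m d (kerr M a (rm M a + ρ)) < ENNReal.ofReal η → ∀ (σ b : Bool) (m' : ℕ) (ε R0 : ℝ),
        0 < ε → ∃ R ≥ R0, ∃ A ≥ Real.exp (-κ * R), ∃ d', IsData M a (rm M a + ρ) s d' ∧
          pm s m' d' d < ENNReal.ofReal ε ∧ IsKick b Λ R A (Ud d σ) (Ud d' σ)

end Vale.Agent.P354D
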