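import Vale.Agent.P354D.Tab

/-!
Real inequalities for the weights. A = a(u), B = a(v), E = exp (-c tau).
-/

namespace Vale.Agent.P354D

noncomputable section

/-- The density of the good term. -/
def gC (A B E : ℝ) : Cls → ℝ
  | .V | .Vd => (A + E) / B
  | .U | .Ud => (B + E) / A
  | .P => 1 / (B * (A + E)) + 1 / (A * (B + E))
  | .O => 0

/-- The size of the weight. -/
def oC (A B E : ℝ) : Cls → ℝ
  | .V => 1 / B
  | .U => 1 / A
  | c => gC A B E c

/-- The part of the pointwise bound which does not decay exponentially. -/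
def alC (A B : ℝ) : Cls → ℝ
  | .V | .Vd => B
  | .U | .Ud => A
  | .P => A * B
  | .O => 0

/-- The density of the sources. -/
def sgm (A B E : ℝ) : ℝ := E * (1 / A + 1 / B)

/-- The range of the three numbers. -/
structure Rg (A B E : ℝ) : Prop where
  A0 : 0 < A
  A1 : A ≤ 1
  B0 : 0 < B
  B1 : B ≤ 1
  E0 : 0 < E
  E1 : E ≤ 1

theorem amgm {z P Q x y : ℝ} (hP : 0 ≤ P) (hQ : 0 ≤ Q) (h : z ^ 2 ≤ P * Q) :
    2 * z * (x * y) ≤ P * x ^ 2 + Q * y ^ 2 := by
  have h1 : (2 * z * (x * y)) ^ 2 ≤ (P * x ^ 2 + Q * y ^ 2) ^ 2 := by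
    have := mul_le_mul_of_nonneg_right h (sq_nonneg (x * y))
    nlinarith [sq_nonneg (P * x ^ 2 - Q * y ^ 2)]
  exact (abs_le_of_sq_le_sq' h1 (by positivity)).2

variable {A B E : ℝ}

theorem Rg.symm (h : Rg A B E) : Rg B A E := ⟨h.B0, h.B1, h.A0, h.A1, h.E0, h.E1⟩

theorem Rg.g_nn (h : Rg A B E) (c : Cls) : 0 ≤ gC A B E c := by
  obtain ⟨a0, -, b0, -, e0, -⟩ := h
  cases c <;> simp only [gC] <;> positivity

theorem Rg.o_nn (h : Rg A B E) (c : Cls) : 0 ≤ oC A B E c := by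
  have := h.g_nn c
  obtain ⟨a0, -, b0, -, e0, -⟩ := h
  cases c <;> simp only [oC] <;> positivity

theorem Rg.s_nn (h : Rg A B E) : 0 ≤ sgm A B E := by
  obtain ⟨a0, -, b0, -, e0, -⟩ := h
  unfold sgm
  positivity

theorem Rg.al_nn (h : Rg A B E) (c : Cls) : 0 ≤ alC A B c := by
  obtain ⟨a0, -, b0, -, e0, -⟩ := h
  cases c <;> simp only [alC] <;> positivity

theorem Rg.al_one (h : Rg A B E) (c : Cls) : alC A B c ≤ 1 := by
  obtain ⟨a0, a1, b0, b1, -, -⟩ := h
  cases c <;> simp only [alC] <;> nlinarith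

theorem Rg.al_A (h : Rg A B E) {c : Cls} (hc : c = .U ∨ c = .Ud ∨ c = .P ∨ c = .O) :
    alC A B c ≤ A := by
  obtain ⟨a0, a1, b0, b1, -, -⟩ := h
  rcases hc with rfl | rfl | rfl | rfl <;> simp only [alC] <;> nlinarith

theorem Rg.al_B (h : Rg A B E) {c : Cls} (hc : c = .V ∨ c = .Vd ∨ c = .P ∨ c = .O) :
    alC A B c ≤ B := by
  obtain ⟨a0, a1, b0, b1, -, -⟩ := h
  rcases hc with rfl | rfl | rfl | rfl <;> simp only [alC] <;> nlinarith

theorem Rg.i1 (h : Rg A B E) : 1 ≤ (A + E) / B * ((B + E) / A) := by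
  obtain ⟨a0, a1, b0, b1, e0, e1⟩ := h
  rw [div_mul_div_comm, le_div_iff₀ (by positivity)]
  nlinarith [mul_pos a0 e0, mul_pos b0 e0, mul_pos e0 e0]

theorem Rg.i2 (h : Rg A B E) :
    (1 / B) ^ 2 ≤ (A + E) / B * (1 / (B * (A + E)) + 1 / (A * (B + E))) := by
  obtain ⟨a0, a1, b0, b1, e0, e1⟩ := h
  have e : (A + E) / B * (1 / (B * (A + E))) = (1 / B) ^ 2 := by field_simp
  rw [mul_add, e]
  exact le_add_of_nonneg_right (by positivity)

theorem Rg.i3 (h : Rg A B E) :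
    (1 / (B * (A + E)) + 1 / (A * (B + E))) * A ^ 2 ≤ 2 * ((A + E) / B) := by
  obtain ⟨a0, a1, b0, b1, e0, e1⟩ := h
  have e1 : 1 / (B * (A + E)) * A ^ 2 ≤ (A + E) / B := by
    rw [one_div_mul_eq_div, div_le_div_iff₀ (by positivity) b0]
    nlinarith [mul_pos b0 (mul_pos a0 e0), mul_pos b0 (mul_pos e0 e0)]
  have e2 : 1 / (A * (B + E)) * A ^ 2 ≤ (A + E) / B := by
    rw [one_div_mul_eq_div, div_le_div_iff₀ (by positivity) b0]
    nlinarith [mul_pos a0 (mul_pos a0 e0), mul_pos b0 (mul_pos a0 e0), mul_pos a0 (mul_pos e0 e0)]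
  linarith

theorem Rg.i4 (h : Rg A B E) : (A + E) / B ≤ 2 * (1 / B) := by
  obtain ⟨a0, a1, b0, b1, e0, e1⟩ := h
  rw [mul_one_div]
  gcongr
  linarith

theorem Rg.i5 (h : Rg A B E) : A / B ≤ (A + E) / B := by
  obtain ⟨a0, a1, b0, b1, e0, e1⟩ := h
  gcongr
  linarith

/-- The master inequality with a bound z of the coefficient. -/
theorem Rg.mV (h : Rg A B E) {i : Cls} {z : ℝ} (z0 : 0 ≤ z) (z1 : z ≤ 1) (hz : i = .Vd ∨ z ≤ A) :
    (oC A B E i * z) ^ 2 ≤ 4 * (gC A B E i * ((A + E) / B)) := by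
  have g0 := h.g_nn .V
  have g1 := h.g_nn .P
  have g2 := h.g_nn .U
  have i1 := h.i1
  have i3 := h.i3
  have i4 := h.symm.i4
  have i5 := h.i5
  obtain ⟨a0, a1, b0, b1, e0, e1⟩ := h
  simp only [gC] at g0 g1 g2
  rcases hz with rfl | hz
  · simp only [oC, gC]
    have := mul_le_of_le_one_right g0 z1
    have := pow_le_pow_left₀ (mul_nonneg g0 z0) this 2
    nlinarith
  cases i <;> simp only [oC, gC]
  · have k1 : 1 / B * z ≤ (A + E) / B := le_trans (by rw [one_div_mul_eq_div]; gcongr) i5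
    have := pow_le_pow_left₀ (by positivity) k1 2
    nlinarith
  · have := mul_le_of_le_one_right g0 z1
    have := pow_le_pow_left₀ (mul_nonneg g0 z0) this 2
    nlinarith
  · have k1 : 1 / A * z ≤ 1 := by rw [one_div_mul_eq_div, div_le_one a0]; exact hz
    have := pow_le_pow_left₀ (by positivity) k1 2
    nlinarith
  · have k1 : (B + E) / A * z ≤ 2 := by
      refine (mul_le_mul i4 hz z0 (by positivity)).trans (le_of_eq ?_)
      field_simp
    have := pow_le_pow_left₀ (by positivity) k1 2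
    nlinarith
  · have k1 := pow_le_pow_left₀ z0 hz 2
    have k2 := mul_le_mul_of_nonneg_left ((mul_le_mul_of_nonneg_left k1 g1).trans i3) g1
    nlinarith [mul_nonneg g0 g1]
  · simp

theorem oC_symm (i : Cls) : ∃ j, oC A B E i = oC B A E j ∧ gC A B E i = gC B A E j ∧
    (i = .Ud → j = .Vd) := by
  cases i
  · exact ⟨.U, rfl, rfl, fun h => nomatch h⟩
  · exact ⟨.Ud, rfl, rfl, fun h => nomatch h⟩
  · exact ⟨.V, rfl, rfl, fun h => nomatch h⟩
  · exact ⟨.Vd, rfl, rfl, fun _ => rfl⟩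
  · exact ⟨.P, add_comm _ _, add_comm _ _, fun h => nomatch h⟩
  · exact ⟨.O, rfl, rfl, fun h => nomatch h⟩

theorem Rg.mU (h : Rg A B E) {i : Cls} {z : ℝ} (z0 : 0 ≤ z) (z1 : z ≤ 1) (hz : i = .Ud ∨ z ≤ B) :
    (oC A B E i * z) ^ 2 ≤ 4 * (gC A B E i * ((B + E) / A)) := by
  obtain ⟨j, h1, h2, h3⟩ := oC_symm (A := A) (B := B) (E := E) i
  rw [h1, h2]
  exact h.symm.mV z0 z1 (hz.imp_left h3)

theorem Rg.mP (h : Rg A B E) {i : Cls} {z : ℝ} (z0 : 0 ≤ z) (z1 : z ≤ 1) :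
    (oC A B E i * z) ^ 2 ≤ 4 * (gC A B E i * gC A B E .P) := by
  have o0 := h.o_nn i
  refine (pow_le_pow_left₀ (mul_nonneg o0 z0) (mul_le_of_le_one_right o0 z1) 2).trans ?_
  have g0 := h.g_nn .V
  have g1 := h.g_nn .P
  have g2 := h.g_nn .U
  have i2 := h.i2
  have i2' := h.symm.i2
  have i4 := pow_le_pow_left₀ g0 h.i4 2
  have i4' := pow_le_pow_left₀ g2 h.symm.i4 2
  rw [add_comm (1 / (A * (B + E)))] at i2'
  simp only [gC] at g0 g1 g2 i4 i4'
  cases i <;> simp only [oC, gC] <;> nlinarith [mul_nonneg g0 g1, mul_nonneg g2 g1]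

theorem Rg.master (h : Rg A B E) {i j m : Cls} (H : OK i j m = true) :
    (oC A B E i * alC A B m) ^ 2 ≤ 4 * (gC A B E i * gC A B E j) := by
  have z0 := h.al_nn m
  have z1 := h.al_one m
  cases j <;> simp only [OK, Bool.or_eq_true, beq_iff_eq, or_assoc] at H
  · exact h.mV z0 z1 (H.imp_right h.al_A)
  · exact h.mV z0 z1 (H.imp_right h.al_A)
  · exact h.mU z0 z1 (H.imp_right h.al_B)
  · exact h.mU z0 z1 (H.imp_right h.al_B)
  · exact h.mP z0 z1
  · subst H
    simp [alC, gC]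

theorem Rg.master_lin (h : Rg A B E) {i j : Cls} (H : OKl i j = true) :
    oC A B E i ^ 2 ≤ 4 * (gC A B E i * gC A B E j) := by
  rw [← mul_one (oC A B E i)]
  cases j <;> simp only [OKl, beq_iff_eq] at H
  · exact h.mV zero_le_one le_rfl (Or.inl H)
  · exact h.mV zero_le_one le_rfl (Or.inl H)
  · exact h.mU zero_le_one le_rfl (Or.inl H)
  · exact h.mU zero_le_one le_rfl (Or.inl H)
  · exact h.mP zero_le_one le_rfl
  · exact nomatch H

theorem Rg.oE (h : Rg A B E) (i : Cls) : oC A B E i * E ^ 2 ≤ 2 * sgm A B E := by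
  have i4 := h.i4
  have i4' := h.symm.i4
  obtain ⟨a0, a1, b0, b1, e0, e1⟩ := h
  have pa : 0 < 1 / A := by positivity
  have pb : 0 < 1 / B := by positivity
  have e2 : E ^ 2 ≤ E := by nlinarith
  have k : ∀ {x y : ℝ}, 0 < x → 0 < y → 1 / (x * (y + E)) * E ^ 2 ≤ E * (1 / x) := fun hx hy => by
    rw [one_div_mul_eq_div, mul_one_div, div_le_div_iff₀ (by positivity) hx]
    nlinarith [mul_pos hx (mul_pos hy e0)]
  have k1 := k a0 b0
  have k2 := k b0 a0
  cases i <;> simp only [oC, gC, sgm]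
  · nlinarith [mul_le_mul_of_nonneg_left e2 pb.le, mul_pos e0 pa]
  · nlinarith [mul_le_mul i4 e2 (sq_nonneg E) (by positivity), mul_pos e0 pa]
  · nlinarith [mul_le_mul_of_nonneg_left e2 pa.le, mul_pos e0 pb]
  · nlinarith [mul_le_mul i4' e2 (sq_nonneg E) (by positivity), mul_pos e0 pb]
  · nlinarith [mul_pos e0 pa, mul_pos e0 pb]
  · nlinarith [mul_pos e0 pa, mul_pos e0 pb]

theorem Rg.src (h : Rg A B E) (i : Cls) :
    (oC A B E i * E) ^ 2 ≤ 2 * (gC A B E i * sgm A B E) := by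
  have k := h.oE i
  have o0 := h.o_nn i
  have k' := mul_le_mul_of_nonneg_left k o0
  obtain ⟨a0, a1, b0, b1, e0, e1⟩ := h
  have key : ∀ {x y : ℝ}, 0 < x → 0 < y → (1 / y * E) ^ 2 ≤ (x + E) / y * (E * (1 / y)) :=
    fun {x y} hx hy => by
      rw [sq, mul_comm E (1 / y)]
      refine mul_le_mul_of_nonneg_right ?_ (by positivity)
      rw [one_div_mul_eq_div]
      gcongr
      linarith
  cases i
  · have := key a0 b0
    have p : 0 ≤ (A + E) / B * (E * (1 / A)) := by positivity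
    have p' : 0 ≤ (A + E) / B * (E * (1 / B)) := by positivity
    simp only [oC, gC, sgm]
    nlinarith
  · simp only [oC] at k' ⊢
    nlinarith
  · have := key b0 a0
    have p : 0 ≤ (B + E) / A * (E * (1 / A)) := by positivity
    have p' : 0 ≤ (B + E) / A * (E * (1 / B)) := by positivity
    simp only [oC, gC, sgm]
    nlinarith
  · simp only [oC] at k' ⊢
    nlinarith
  · simp only [oC] at k' ⊢
    nlinarith
  · simp [oC, gC]

theorem Rg.bterm (h : Rg A B E) {i : Cls} (hi : i ≠ .V) :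
    oC A B E i * (B + E) ≤ 2 * gC A B E i := by
  have g0 := h.g_nn i
  have k : gC A B E i * (B + E) ≤ 2 * gC A B E i := by nlinarith [h.B1, h.E1]
  cases i
  · exact absurd rfl hi
  · exact k
  · simp only [oC, gC] at g0 ⊢
    rw [one_div_mul_eq_div]
    linarith
  · exact k
  · exact k
  · exact k

end

end Vale.Agent.P354D
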