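import Mathlib

/-!
Abstract genericity: Fatou and one kick give a meagre exceptional set.
-/

open MeasureTheory Set Filter Topology
open scoped ENNReal

namespace Vale.Agent.P354D

section
variable {X Y Z E : Type} [TopologicalSpace X] [MeasurableSpace Y] [MeasurableSpace Z]
  [NormedAddCommGroup E]

/-- The square of the L2 norm of f y. -/
noncomputable def flux (ν : Measure Z) (f : Y → Z → E) (y : Y) : ℝ≥0∞ := ∫⁻ z, ‖f y z‖ₑ ^ 2 ∂ν

theorem enorm_sub_sq (a b : E) : ‖a - b‖ₑ ^ 2 ≤ 2 * ‖a‖ₑ ^ 2 + 2 * ‖b‖ₑ ^ 2 := by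
  have h : ‖a - b‖ ^ 2 ≤ 2 * ‖a‖ ^ 2 + 2 * ‖b‖ ^ 2 := by
    have h1 := pow_le_pow_left₀ (norm_nonneg _) (norm_sub_le a b) 2
    nlinarith [sq_nonneg (‖a‖ - ‖b‖)]
  have e : ∀ c : E, ‖c‖ₑ ^ 2 = ENNReal.ofReal (‖c‖ ^ 2) := fun c => by
    rw [← ofReal_norm, ENNReal.ofReal_pow (norm_nonneg _)]
  rw [e, e, e]
  refine (ENNReal.ofReal_le_ofReal h).trans (le_of_eq ?_)
  rw [ENNReal.ofReal_add (by positivity) (by positivity), ENNReal.ofReal_mul (by norm_num),
    ENNReal.ofReal_mul (by norm_num), ENNReal.ofReal_ofNat]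

variable [MeasurableSpace E] [BorelSpace E]

theorem meas_flux (ν : Measure Z) [SFinite ν] {f : Y → Z → E}
    (h : Measurable fun p : Y × Z => f p.1 p.2) : Measurable (flux ν f) :=
  (h.enorm.pow_const 2).lintegral_prod_right'

theorem flux_sub (ν : Measure Z) {f g : Y → Z → E} (hf : Measurable fun p : Y × Z => f p.1 p.2)
    (hg : Measurable fun p : Y × Z => g p.1 p.2) (y : Y) :
    ∫⁻ z, ‖f y z - g y z‖ₑ ^ 2 ∂ν ≤ 2 * flux ν f y + 2 * flux ν g y := by
  have m1 : Measurable fun z => ‖f y z‖ₑ ^ 2 := (hf.comp measurable_prodMk_left).enorm.pow_const 2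
  have m2 : Measurable fun z => ‖g y z‖ₑ ^ 2 := (hg.comp measurable_prodMk_left).enorm.pow_const 2
  refine (lintegral_mono fun z => enorm_sub_sq _ _).trans (le_of_eq ?_)
  rw [lintegral_add_left (m1.const_mul 2), lintegral_const_mul _ m1, lintegral_const_mul _ m2]
  rfl

/-- Lower semicontinuity from convergence in L2 on an increasing family of windows. -/
theorem lsc [SecondCountableTopology E] (ν : Measure Z) {g : Z → E} {gn : ℕ → Z → E}
    (hg : Measurable g) (hn : ∀ n, Measurable (gn n)) {S : ℕ → Set Z}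
    (hm : Monotone S) (hu : ∀ᵐ z ∂ν, ∃ m, z ∈ S m)
    (h : ∀ m, Tendsto (fun n => ∫⁻ z in S m, ‖gn n z - g z‖ₑ ^ 2 ∂ν) atTop (𝓝 0)) :
    ∫⁻ z, ‖g z‖ₑ ^ 2 ∂ν ≤ liminf (fun n => ∫⁻ z, ‖gn n z‖ₑ ^ 2 ∂ν) atTop := by
  have key : ∀ m, ∫⁻ z in S m, ‖g z‖ₑ ^ 2 ∂ν ≤ liminf (fun n => ∫⁻ z, ‖gn n z‖ₑ ^ 2 ∂ν) atTop := by
    intro m
    refine le_of_forall_lt_imp_le_of_dense fun c hc => ?_
    by_contra hcon
    have fr := frequently_lt_of_liminf_lt (by isBoundedDefault) (not_le.1 hcon)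
    obtain ⟨φ, hφ, hφ'⟩ := extraction_of_frequently_atTop fr
    have t1 : TendstoInMeasure (ν.restrict (S m)) (fun n => gn (φ n)) atTop g := by
      refine tendstoInMeasure_of_tendsto_eLpNorm (p := 2) two_ne_zero
        (fun n => (hn _).aestronglyMeasurable) hg.aestronglyMeasurable ?_
      have t2 := ((ENNReal.continuous_rpow_const (y := 1 / 2)).tendsto 0).comp
        ((h m).comp hφ.tendsto_atTop)
      rw [ENNReal.zero_rpow_of_pos (by norm_num)] at t2
      refine t2.congr fun n => ?_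
      rw [eLpNorm_eq_lintegral_rpow_enorm_toReal two_ne_zero ENNReal.ofNat_ne_top]
      simp
    obtain ⟨ψ, -, hψ⟩ := t1.exists_seq_tendsto_ae
    have a1 : ∫⁻ z in S m, ‖g z‖ₑ ^ 2 ∂ν ≤
        liminf (fun n => ∫⁻ z in S m, ‖gn (φ (ψ n)) z‖ₑ ^ 2 ∂ν) atTop := by
      refine le_trans (lintegral_mono_ae ?_) (lintegral_liminf_le fun n => (hn _).enorm.pow_const 2)
      filter_upwards [hψ] with z hz
      exact (ENNReal.Tendsto.pow (n := 2) hz.enorm).liminf_eq.ge
    refine absurd (hc.trans_le (a1.trans ?_)) (lt_irrefl c)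
    exact liminf_le_of_frequently_le' (Frequently.of_forall fun n =>
      (setLIntegral_le_lintegral _ _).trans (hφ' _).le)
  have e : ∫⁻ z, ‖g z‖ₑ ^ 2 ∂ν = ∫⁻ z in ⋃ m, S m, ‖g z‖ₑ ^ 2 ∂ν := by
    rw [Measure.restrict_eq_self_of_ae_mem (hu.mono fun z hz => mem_iUnion.2 hz)]
  rw [e, setLIntegral_iUnion_of_directed _ hm.directed_le]
  exact iSup_le key

/-- **Genericity.** The densities f d depend continuously on d, and every d can be moved a little
so that the density changes by a lot on almost all lines y. Then the d with finite flux on almost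
all lines form a meagre set. -/
theorem generic [SequentialSpace X] (μ : Measure Y) [IsFiniteMeasure μ] (hμ : μ ≠ 0)
    (ν : Measure Z) [SFinite ν] (f : X → Y → Z → E)
    (meas : ∀ d, Measurable fun p : Y × Z => f d p.1 p.2)
    (cont : ∀ (u : ℕ → X) d, Tendsto u atTop (𝓝 d) → ∀ᵐ y ∂μ,
      flux ν (f d) y ≤ liminf (fun n => flux ν (f (u n)) y) atTop)
    (kick : ∀ d, ∀ W ∈ 𝓝 d, ∀ N : ℕ, ∃ d' ∈ W, ∀ᵐ y ∂μ,
      (N : ℝ≥0∞) < ∫⁻ z, ‖f d' y z - f d y z‖ₑ ^ 2 ∂ν) :
    IsMeagre {d | ∀ᵐ y ∂μ, flux ν (f d) y < ⊤} := by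
  have m0 : μ univ ≠ 0 := by simpa using hμ
  have m1 : μ univ ≠ ⊤ := measure_ne_top _ _
  have mB : ∀ d (N : ℕ), MeasurableSet {y | (N : ℝ≥0∞) < flux ν (f d) y} := fun d N =>
    measurableSet_lt measurable_const (meas_flux ν (meas d))
  let F : ℕ → Set X := fun N => {d | 3 * μ {y | (N : ℝ≥0∞) < flux ν (f d) y} ≤ μ univ}
  have sub : {d | ∀ᵐ y ∂μ, flux ν (f d) y < ⊤} ⊆ ⋃ N, F N := by
    intro d hd
    have t := tendsto_measure_iInter_atTop (μ := μ)
      (s := fun N : ℕ => {y | (N : ℝ≥0∞) < flux ν (f d) y}) (fun N => (mB d N).nullMeasurableSet)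
      (fun a b hab y (hy : (b : ℝ≥0∞) < _) => (show (a : ℝ≥0∞) < _ from lt_of_le_of_lt (Nat.cast_le.2 hab) hy)) ⟨0, measure_ne_top _ _⟩
    have z : μ (⋂ N : ℕ, {y | (N : ℝ≥0∞) < flux ν (f d) y}) = 0 := by
      refine measure_mono_null (fun y hy => ?_) (ae_iff.1 hd)
      intro hy'
      obtain ⟨n, hn⟩ := ENNReal.exists_nat_gt (ne_of_lt hy')
      exact lt_asymm hn (mem_iInter.1 hy n)
    rw [z] at t
    have t3 := ENNReal.Tendsto.const_mul (a := 3) t (Or.inr (by simp))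
    rw [mul_zero] at t3
    obtain ⟨N, hN⟩ := (t3.eventually (gt_mem_nhds (pos_iff_ne_zero.2 m0))).exists
    exact mem_iUnion.2 ⟨N, le_of_lt hN⟩
  refine IsMeagre.mono sub (isMeagre_iUnion fun N => ?_)
  have cl : IsClosed (F N) := by
    refine IsSeqClosed.isClosed fun u d hu hd => ?_
    have a1 : μ {y | (N : ℝ≥0∞) < flux ν (f d) y} ≤
        liminf (fun n => μ {y | (N : ℝ≥0∞) < flux ν (f (u n)) y}) atTop := by
      simp only [← lintegral_indicator_one (mB _ N)]
      refine le_trans (lintegral_mono_ae ?_)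
        (lintegral_liminf_le fun n => measurable_one.indicator (mB (u n) N))
      filter_upwards [cont u d hd] with y hy
      by_cases c : (N : ℝ≥0∞) < flux ν (f d) y
      · have b2 := eventually_lt_of_lt_liminf (c.trans_le hy)
        rw [indicator_of_mem (show y ∈ {y | (N : ℝ≥0∞) < flux ν (f d) y} from c)]
        refine le_liminf_of_le (by isBoundedDefault) ?_
        filter_upwards [b2] with n hn
        rw [indicator_of_mem (show y ∈ {y | (N : ℝ≥0∞) < flux ν (f (u n)) y} from hn)]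
      · rw [indicator_of_notMem (show y ∉ {y | (N : ℝ≥0∞) < flux ν (f d) y} from c)]
        exact zero_le
    have a2 : liminf (fun n => μ {y | (N : ℝ≥0∞) < flux ν (f (u n)) y}) atTop ≤ μ univ / 3 := by
      refine liminf_le_of_frequently_le' (Frequently.of_forall fun n => ?_)
      exact (ENNReal.le_div_iff_mul_le (Or.inl (by simp)) (Or.inl (by simp))).2
        (by rw [mul_comm]; exact hu n)
    have a3 := (ENNReal.le_div_iff_mul_le (Or.inl (by simp)) (Or.inl (by simp))).1 (a1.trans a2)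
    rw [mul_comm] at a3
    exact a3
  refine (cl.isNowhereDense_iff.2 (eq_empty_of_forall_notMem fun d hd => ?_)).isMeagre
  obtain ⟨d', h1, h2⟩ := kick d _ (mem_interior_iff_mem_nhds.1 hd) (4 * N)
  have h0 : d ∈ F N := interior_subset hd
  have a1 : μ univ ≤ μ {y | (N : ℝ≥0∞) < flux ν (f d') y} + μ {y | (N : ℝ≥0∞) < flux ν (f d) y} := by
    refine le_trans (measure_mono_ae ?_) (measure_union_le _ _)
    filter_upwards [h2] with y hy _
    by_contra c0
    have c : flux ν (f d') y ≤ N ∧ flux ν (f d) y ≤ N :=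
      ⟨not_lt.1 fun h => c0 (Or.inl h), not_lt.1 fun h => c0 (Or.inr h)⟩
    have c1 := hy.trans_le (flux_sub ν (meas d') (meas d) y)
    have c2 : 2 * flux ν (f d') y + 2 * flux ν (f d) y ≤ 2 * N + 2 * N := by gcongr; exacts [c.1, c.2]
    have c3 := c1.trans_le c2
    rw [← add_mul] at c3
    norm_num at c3
  have a2 : 3 * μ univ ≤ 2 * μ univ := by
    calc 3 * μ univ ≤ 3 * (μ {y | (N : ℝ≥0∞) < flux ν (f d') y} +
          μ {y | (N : ℝ≥0∞) < flux ν (f d) y}) := by gcongr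
      _ ≤ μ univ + μ univ := by rw [mul_add]; exact add_le_add h1 h0
      _ = 2 * μ univ := (two_mul _).symm
  have a3 := (ENNReal.mul_le_mul_iff_left m0 m1).1 a2
  norm_num at a3

end

end Vale.Agent.P354D
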