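import Vale.Agent.P354H.Defs

/-!
Angular jets, and the analytic lemmas of the difference estimate.
-/

open scoped ContDiff
open MeasureTheory Set Filter Topology

namespace Vale.Agent.P354D

open Vale.Agent.P354H

/-- Space-time (tau, x, y1, y2). -/
abbrev R4 : Type := ℝ × X3

/-- Angular derivative. -/
noncomputable def D (A : Fin 2) (f : R4 → ℝ) : R4 → ℝ := dx A.succ f

/-- The sum over all angular words of length at most k of the products of the derivatives. -/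
noncomputable def B : ℕ → (R4 → ℝ) → (R4 → ℝ) → R4 → ℝ
  | 0, f, g, p => f p * g p
  | k + 1, f, g, p => f p * g p + B k (D 0 f) (D 0 g) p + B k (D 1 f) (D 1 g) p

/-- The square of the size of the angular jet of order k, and the size. -/
noncomputable def Q (k : ℕ) (f : R4 → ℝ) (p : R4) : ℝ := B k f f p
noncomputable def N (k : ℕ) (f : R4 → ℝ) (p : R4) : ℝ := √(Q k f p)

/-- Energy inequality with a bulk term. -/
def ENER : Prop :=
  ∀ (f h : R4 → ℝ) (g : Fin 3 → R4 → ℝ) (T : ℝ), 0 ≤ T → ContDiff ℝ 1 f → HasCompactSupport f →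
    (∀ j, ContDiff ℝ 1 (g j)) → (∀ j, HasCompactSupport (g j)) → Continuous h →
    HasCompactSupport h → (∀ p : R4, p.1 ∈ Icc 0 T → dt f p + ∑ j, dx j (g j) p ≤ h p) →
    ∫ x, f (T, x) ≤ (∫ x, f (0, x)) + ∫ s in (0 : ℝ)..T, ∫ x, h (s, x)

/-- Sobolev inequality in the two angles. -/
def SOB2 : Prop :=
  ∀ (f : R4 → ℝ) (t x : ℝ) (y : ℝ × ℝ), ContDiff ℝ ∞ f → HasCompactSupport f →
    f (t, x, y) ^ 2 ≤ 2 * ∫ z : ℝ × ℝ, Q 2 f (t, x, z)

/-- Integration along the lines x = w + ε tau (ε = 1 or -1) at fixed angle. The function z has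
the derivative F along these lines; G bounds Q 2 F / h, and the integral of h along the lines is
at most I. Then the increments of z are bounded by a function H of the line whose weighted
integral is bounded by the space-time integral of G. -/
def LINE : Prop :=
  ∀ (z F G h : R4 → ℝ) (γ : ℝ → ℝ) (ε T I : ℝ), 0 ≤ T → ContDiff ℝ ∞ z → ContDiff ℝ ∞ F →
    HasCompactSupport F → Continuous G → HasCompactSupport G → Continuous γ → (∀ w, 0 ≤ γ w) →
    Continuous h → (∀ p, 0 < h p) → (∀ s x y y', h (s, x, y) = h (s, x, y')) →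
    (∀ w, ∫ s in (0 : ℝ)..T, h (s, w + ε * s, 0) ≤ I) →
    (∀ p : R4, p.1 ∈ Icc 0 T → dt z p + ε * dx 0 z p = F p ∧
      γ (p.2.1 - ε * p.1) * Q 2 F p ≤ h p * G p) →
    ∃ H : ℝ → ℝ, Continuous H ∧ HasCompactSupport H ∧ (∀ w, 0 ≤ H w) ∧
      (∀ w y, ∀ t ∈ Icc 0 T, γ w * (z (t, w + ε * t, y) - z (0, w, y)) ^ 2 ≤ H w) ∧
      ∫ w, H w ≤ 2 * I * ∫ s in (0 : ℝ)..T, ∫ x, G (s, x)

/-- The same at time zero: the supremum over the angles is bounded by a function of x. -/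
def SLICE : Prop :=
  ∀ (z G : R4 → ℝ) (γ : ℝ → ℝ), ContDiff ℝ ∞ z → HasCompactSupport z → Continuous G →
    HasCompactSupport G → (∀ w, 0 ≤ γ w) → (∀ x : X3, γ x.1 * Q 2 z (0, x) ≤ G (0, x)) →
    ∃ H : ℝ → ℝ, Continuous H ∧ HasCompactSupport H ∧ (∀ w, 0 ≤ H w) ∧
      (∀ w y, γ w * z (0, w, y) ^ 2 ≤ H w) ∧ ∫ w, H w ≤ 2 * ∫ x, G (0, x)

end Vale.Agent.P354D
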