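import Vale.Agent.P354D.Pt
import Vale.Agent.P354DI.Main
import Vale.Agent.P354HU.Uniq

/-!
The crude energy estimate for the difference.
-/

open scoped ContDiff
open Set MeasureTheory

namespace Vale.Agent.P354D

open Vale.Agent.P354H Vale.Agent.P354C

noncomputable section

/-- A cut-off which decreases along all causal directions. -/
structure Cut (χ : R4 → ℝ) : Prop where
  th : Th χ
  nn : ∀ p, 0 ≤ χ p
  der : ∀ p, dt χ p + |dx 0 χ p| ≤ 0

/-- Class C1 with compact support. -/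
def C1 (f : R4 → ℝ) : Prop := ContDiff ℝ 1 f ∧ HasCompactSupport f

theorem C1.dif {f : R4 → ℝ} (h : C1 f) : Differentiable ℝ f := h.1.differentiable one_ne_zero

theorem C1.mul {f w : R4 → ℝ} (h : C1 f) (hw : ContDiff ℝ 1 w) : C1 fun p => w p * f p :=
  ⟨hw.mul h.1, h.2.mul_left⟩

theorem C1.add {f g : R4 → ℝ} (h : C1 f) (h' : C1 g) : C1 fun p => f p + g p :=
  ⟨h.1.add h'.1, h.2.add h'.2⟩

theorem c1_sum {ι : Type} (s : Finset ι) {F : ι → R4 → ℝ} (h : ∀ i, C1 (F i)) :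
    C1 fun p => ∑ i ∈ s, F i p := by
  classical
  induction s using Finset.induction_on with
  | empty => exact ⟨contDiff_const, HasCompactSupport.zero⟩
  | insert i s hi ih =>
    simp only [Finset.sum_insert hi]
    exact (h i).add ih

theorem c1_list {α : Type} (L : List α) {F : α → R4 → ℝ} (h : ∀ t, C1 (F t)) :
    C1 fun p => (L.map fun t => F t p).sum := by
  induction L with
  | nil => exact ⟨contDiff_const, HasCompactSupport.zero⟩
  | cons t L ih => exact (h t).add ih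

theorem dv_list {α : Type} (L : List α) {F : α → R4 → ℝ} (h : ∀ t, C1 (F t)) (a p : R4) :
    dv a (fun p => (L.map fun t => F t p).sum) p = (L.map fun t => dv a (F t) p).sum := by
  induction L with
  | nil => exact congrFun (dv_const 0 a) p
  | cons t L ih =>
    simp only [List.map_cons, List.sum_cons]
    rw [dv_add (h t).dif (c1_list L h).dif, ← ih]

theorem Sm.one {f : R4 → ℝ} (h : Sm f) : ContDiff ℝ 1 f := h.of_le (by simp)

section
variable {e f h0 h1 χ : R4 → ℝ} {T : ℝ}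

theorem cut_point (hχ : Cut χ) (he : C1 e) (hf : C1 f) (a0 : C1 h0) (a1 : C1 h1) {p : R4} {ρ : ℝ}
    (H : |f p| ≤ e p) (H' : dt e p + dx 0 f p + D 0 h0 p + D 1 h1 p ≤ ρ) :
    dt (fun p => χ p * e p) p + (dx 0 (fun p => χ p * f p) p + D 0 (fun p => χ p * h0 p) p +
      D 1 (fun p => χ p * h1 p) p) ≤ χ p * ρ := by
  rw [dt_eq, dx_eq, D_eq, D_eq, dv_mul hχ.th.dif he.dif, dv_mul hχ.th.dif hf.dif,
    dv_mul hχ.th.dif a0.dif, dv_mul hχ.th.dif a1.dif]
  simp only [← D_eq, hχ.th.ang, zero_mul, zero_add]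
  rw [← dt_eq, ← dt_eq, ← dx_eq, ← dx_eq]
  have k1 := mul_le_mul_of_nonneg_left H' (hχ.nn p)
  have k2 : dx 0 χ p * f p ≤ |dx 0 χ p| * e p :=
    (le_abs_self _).trans ((abs_mul _ _).le.trans (mul_le_mul_of_nonneg_left H (abs_nonneg _)))
  have k3 := mul_le_mul_of_nonneg_right (hχ.der p) ((abs_nonneg _).trans H)
  linarith

theorem gron (hχ : Cut χ) (he : C1 e) (hf : C1 f) (a0 : C1 h0) (a1 : C1 h1) {L : ℝ}
    (H : ∀ p : R4, p.1 ∈ Icc 0 T → |f p| ≤ e p ∧
      dt e p + dx 0 f p + D 0 h0 p + D 1 h1 p ≤ L * e p) {t : ℝ} (ht : t ∈ Icc 0 T) :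
    ∫ x, χ (t, x) * e (t, x) ≤ Real.exp (L * t) * ∫ x, χ (0, x) * e (0, x) := by
  have c := hχ.th.sm
  have g : ∀ j, C1 (![fun p => -1 * (χ p * f p), fun p => -1 * (χ p * h0 p),
      fun p => -1 * (χ p * h1 p)] j) := fun j => by
    fin_cases j
    exacts [(hf.mul c).mul contDiff_const, (a0.mul c).mul contDiff_const,
      (a1.mul c).mul contDiff_const]
  have k := P354HU.energy (L := L) (he.mul c).1 (he.mul c).2 (fun j => (g j).1) (fun j => (g j).2)
    (fun p hp => by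
      have := cut_point hχ he hf a0 a1 (H p hp).1 (H p hp).2
      simp only [Fin.sum_univ_three, Matrix.cons_val_zero, Matrix.cons_val_one, Matrix.cons_val,
        dx_eq, dv_cmul (hf.mul c).dif, dv_cmul (a0.mul c).dif, dv_cmul (a1.mul c).dif]
      have e0 : D 0 (fun p => χ p * h0 p) = dv (0, P354H.e 1) fun p => χ p * h0 p := rfl
      have e1 : D 1 (fun p => χ p * h1 p) = dv (0, P354H.e 2) fun p => χ p * h1 p := rfl
      rw [e0, e1, dx_eq] at this
      linarith) ht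
  rw [mul_zero, Real.exp_zero, one_mul, neg_mul, Real.exp_neg, inv_mul_le_iff₀ (Real.exp_pos _)] at k
  exact k

theorem bulk (hχ : Cut χ) (he : C1 e) (hf : C1 f) (a0 : C1 h0) (a1 : C1 h1) {ρ : R4 → ℝ}
    (hρ : Continuous ρ) (hρ' : HasCompactSupport ρ) (hT : 0 ≤ T)
    (H : ∀ p : R4, p.1 ∈ Icc 0 T → |f p| ≤ e p ∧
      dt e p + dx 0 f p + D 0 h0 p + D 1 h1 p ≤ ρ p) :
    ∫ x, χ (T, x) * e (T, x) ≤ (∫ x, χ (0, x) * e (0, x)) +
      ∫ s in (0 : ℝ)..T, ∫ x, χ (s, x) * ρ (s, x) := by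
  have c := hχ.th.sm
  have g : ∀ j, C1 (![fun p => χ p * f p, fun p => χ p * h0 p, fun p => χ p * h1 p] j) :=
    fun j => by
      fin_cases j
      exacts [hf.mul c, a0.mul c, a1.mul c]
  exact P354DI.ener (fun p => χ p * e p) (fun p => χ p * ρ p) _ T hT (he.mul c).1 (he.mul c).2
    (fun j => (g j).1) (fun j => (g j).2) (c.continuous.mul hρ) hρ'.mul_left fun p hp => by
      rw [Fin.sum_univ_three]
      exact cut_point hχ he hf a0 a1 (H p hp).1 (H p hp).2

end

/-- The scale of the components. -/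
def tt (r : ℝ) (i : Ix) : ℝ := bif psi i then 1 else r ^ 2

theorem tt_mem {r : ℝ} (h0 : 0 < r) (h1 : r ≤ 1) (i : Ix) : r ^ 2 ≤ tt r i ∧ tt r i ≤ 1 := by
  have : r ^ 2 ≤ 1 := pow_le_one₀ h0.le h1
  unfold tt
  cases psi i
  exacts [⟨le_rfl, this⟩, ⟨this, le_rfl⟩]

/-- The sum of the squares of all components. -/
def SQ (k : ℕ) (u u' : Ix → R4 → ℝ) (p : R4) : ℝ := ∑ i, Q k (dl u u' i) p

variable {κ T : ℝ} {u u' : Ix → R4 → ℝ} {k : ℕ} {p : R4}

theorem Q_le_SQ (i : Ix) : Q k (dl u u' i) p ≤ SQ k u u' p :=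
  Finset.single_le_sum (f := fun i => Q k (dl u u' i) p) (fun _ _ => Q_nonneg) (Finset.mem_univ i)

theorem SQ_nonneg : 0 ≤ SQ k u u' p := Finset.sum_nonneg fun _ _ => Q_nonneg

theorem NN_le_SQ (i j : Ix) : N k (dl u u' i) p * N k (dl u u' j) p ≤ SQ k u u' p := by
  have h1 := Q_le_SQ (k := k) (u := u) (u' := u') (p := p) i
  have h2 := Q_le_SQ (k := k) (u := u) (u' := u') (p := p) j
  rw [← N_sq] at h1 h2
  nlinarith [sq_nonneg (N k (dl u u' i) p - N k (dl u u' j) p)]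

theorem Df.c1B (h : Df κ T u u') (i j : Ix) : C1 (B k (dl u u' i) (dl u u' j)) :=
  ⟨(B_sm (h.smd i) (h.smd j)).one, B_cs (h.cs i)⟩

theorem Df.c1Q (h : Df κ T u u') (i : Ix) : C1 (Q k (dl u u' i)) := h.c1B i i

theorem Df.c1SQ (h : Df κ T u u') : C1 (SQ k u u') := c1_sum _ h.c1Q

theorem sum_le_card {F : Ix → ℝ} {M : ℝ} (h : ∀ i, F i ≤ M) : ∑ i, F i ≤ 38 * M := by
  have := Finset.sum_le_card_nsmul Finset.univ F M fun i _ => h i
  rwa [Finset.card_univ, card_Ix, nsmul_eq_mul] at this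

theorem neg_le_of {c x M : ℝ} (h : |x| ≤ M) : -(c * x) ≤ |c| * M :=
  (neg_le_abs _).trans ((abs_mul _ _).le.trans (mul_le_mul_of_nonneg_left h (abs_nonneg _)))

theorem list_neg {α : Type} (L : List α) (F : α → ℝ) :
    -(L.map F).sum = (L.map fun t => -F t).sum := by
  induction L with
  | nil => simp
  | cons t L ih => simp only [List.map_cons, List.sum_cons, neg_add, ih]

theorem list_add {α : Type} (L : List α) (F G : α → ℝ) :
    (L.map F).sum + (L.map G).sum = (L.map fun t => F t + G t).sum := List.sum_map_add.symm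

/-- The angular flux of the symmetric part. -/
def sa (k : ℕ) (u u' : Ix → R4 → ℝ) (A : Fin 2) (p : R4) : ℝ :=
  ∑ i, ((ang i).map fun t => (t.1 : ℝ) *
    (u' (Pix t.2.1 A) p * B k (dl u u' i) (dl u u' t.2.2) p)).sum

theorem Df.c1sa (h : Df κ T u u') (A : Fin 2) : C1 (sa k u u' A) :=
  c1_sum _ fun i => c1_list _ fun _ => ((h.c1B i _).mul (h.sm' _).one).mul contDiff_const

theorem Df.sym (h : Df κ T u u') {m : ℝ} (hm : ∀ b A, N (k + 1) (u' (Pix b A)) p ≤ m) :
    D 0 (sa k u u' 0) p + D 1 (sa k u u' 1) p - 2 * ∑ i, B k (dl u u' i) (aT u u' i) p ≤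
      38 * (4 * (10 * 3 ^ k * (m * SQ k u u' p))) := by
  have m0 : 0 ≤ m := N_nonneg.trans (hm 0 0)
  have e1 : ∀ A, D A (sa k u u' A) p = ∑ i, ((ang i).map fun t => (t.1 : ℝ) *
      D A (fun p => u' (Pix t.2.1 A) p * B k (dl u u' i) (dl u u' t.2.2) p) p).sum := fun A => by
    have c : ∀ i (t : ℤ × Fin 2 × Ix), C1 fun p => u' (Pix t.2.1 A) p *
      B k (dl u u' i) (dl u u' t.2.2) p := fun i _ => (h.c1B i _).mul (h.sm' _).one
    have e : sa k u u' A = fun p => ∑ i, ((ang i).map fun t => (t.1 : ℝ) *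
      (u' (Pix t.2.1 A) p * B k (dl u u' i) (dl u u' t.2.2) p)).sum := rfl
    rw [e, D_eq, dv_sum _ fun i => (c1_list _ fun t => (c i t).mul contDiff_const).dif]
    refine Finset.sum_congr rfl fun i _ => ?_
    rw [dv_list _ fun t => (c i t).mul contDiff_const]
    simp only [dv_cmul (c i _).dif, D_eq]
  have e2 := ang_symm fun b i j =>
    B k (dl u u' i) (fun p => u' (Pix b 0) p * D 0 (dl u u' j) p) p +
      B k (dl u u' i) (fun p => u' (Pix b 1) p * D 1 (dl u u' j) p) p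
  simp only [← h.B_aT] at e2
  rw [two_mul, e1, e1, sub_eq_add_neg, neg_add]
  nth_rewrite 2 [e2]
  simp only [h.B_aT, ← Finset.sum_neg_distrib, ← Finset.sum_add_distrib, list_neg, list_add]
  refine sum_le_card fun i => ?_
  have M0 : 0 ≤ 10 * 3 ^ k * (m * SQ k u u' p) :=
    mul_nonneg (by positivity) (mul_nonneg m0 SQ_nonneg)
  refine (list_le _ (fun t => t.1) _ M0 (fun t _ => ?_) (cnt_ang i)).trans (by norm_num)
  have f : ∀ A, |B k (dl u u' i) (fun p => u' (Pix t.2.1 A) p * D A (dl u u' t.2.2) p) p +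
      B k (dl u u' t.2.2) (fun p => u' (Pix t.2.1 A) p * D A (dl u u' i) p) p -
      D A (fun p => u' (Pix t.2.1 A) p * B k (dl u u' i) (dl u u' t.2.2) p) p| ≤
      5 * 3 ^ k * (m * SQ k u u' p) := fun A =>
    (flux_err (h.sm' _) (h.smd _) (h.smd _) A).trans (mul_le_mul_of_nonneg_left
      (mul_le_mul (hm _ _) (NN_le_SQ _ _) (mul_nonneg N_nonneg N_nonneg) m0) (by positivity))
  have f2 := neg_le_of (c := (t.1 : ℝ)) ((abs_add_le _ _).trans (add_le_add (f 0) (f 1)))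
  linarith

theorem n_mem (i : Ix) : (1 : ℝ) ≤ cN i + cL i ∧ (cN i + cL i : ℝ) ≤ 2 ∧
    |(cL i - cN i : ℝ)| ≤ 1 ∧ (0 : ℝ) ≤ cL i ∧ (cL i : ℝ) ≤ 1 := by
  rcases cNL i with ⟨e1, e2⟩ | ⟨e1, e2⟩ | ⟨e1, e2⟩ <;> rw [e1, e2] <;> norm_num

theorem abs_flux {w : Ix → ℝ} (hw : ∀ i, 0 ≤ w i) :
    |∑ i, (cL i - cN i : ℝ) * w i| ≤ ∑ i, (cN i + cL i : ℝ) * w i :=
  (Finset.abs_sum_le_sum_abs _ _).trans (Finset.sum_le_sum fun i _ => by
    rw [abs_mul, abs_of_nonneg (hw i)]
    exact mul_le_mul_of_nonneg_right ((n_mem i).2.2.1.trans (n_mem i).1) (hw i))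

variable {a Aa : ℝ → ℝ} {δ I c μ r : ℝ} {χ : R4 → ℝ}

theorem Rg.w_le {A B E : ℝ} (h : Rg A B E) (m : Cls) : alC A B m + E ≤ 2 := by
  linarith [h.al_one m, h.E1]

/-- **The crude estimate.** -/
theorem crude (h : Df κ T u u') (ha : Wa a Aa δ I) (hc : 0 ≤ c) (hκ : 0 ≤ κ) (hμ : 0 ≤ μ)
    (hb : Bds a c μ T u u') (hk : k ≤ 4) (r0 : 0 < r) (r1 : r ≤ 1) (hχ : Cut χ) {t : ℝ}
    (ht : t ∈ Icc 0 T) :
    r ^ 2 * ∫ x, χ (t, x) * (wZ a (t, x) * SQ k u u' (t, x)) ≤
      Real.exp ((δ + 304 * r + 33000 * 3 ^ k * μ / r ^ 2) * t) *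
        (2 * ∫ x, χ (0, x) * (wZ a (0, x) * SQ k u u' (0, x))) := by
  have tm := tt_mem r0 r1
  have t0 : ∀ i, 0 ≤ tt r i := fun i => (sq_nonneg r).trans (tm i).1
  have lZ := ha.lgZ
  have hw : ∀ i, Th fun p => tt r i * wZ a p := fun i => (th_const _).mul lZ.th
  have w0 : ∀ i p, 0 ≤ tt r i * wZ a p := fun i p => mul_nonneg (t0 i) (lZ.pos p).le
  have cq : ∀ i, C1 fun p => tt r i * wZ a p * Q k (dl u u' i) p := fun i =>
    (h.c1Q i).mul (hw i).sm
  have cb : ∀ i m, C1 fun p => (cL i : ℝ) * (tt r i * wZ a p * (u' m p * Q k (dl u u' i) p)) :=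
    fun i m => (((h.c1Q i).mul (h.sm' m).one).mul (hw i).sm).mul contDiff_const
  have ce : ∀ z : Ix → ℝ, C1 fun p => ∑ i, z i * (tt r i * wZ a p * Q k (dl u u' i) p) :=
    fun z => c1_sum _ fun i => (cq i).mul contDiff_const
  have cs : ∀ A, C1 fun p => wZ a p * sa k u u' A p := fun A => (h.c1sa A).mul lZ.th.sm
  have low : ∀ p, r ^ 2 * (wZ a p * SQ k u u' p) ≤ ∑ i, tt r i * wZ a p * Q k (dl u u' i) p :=
    fun p => by
      rw [SQ, Finset.mul_sum, Finset.mul_sum]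
      exact Finset.sum_le_sum fun i _ => by
        rw [mul_assoc]
        exact mul_le_mul_of_nonneg_right (tm i).1 (mul_nonneg (lZ.pos p).le Q_nonneg)
  have low2 : ∀ p, ∑ i, tt r i * wZ a p * Q k (dl u u' i) p ≤
      ∑ i, (cN i + cL i : ℝ) * (tt r i * wZ a p * Q k (dl u u' i) p) := fun p =>
    Finset.sum_le_sum fun i _ => le_mul_of_one_le_left (mul_nonneg (w0 i p) Q_nonneg) (n_mem i).1
  have up : ∀ p, ∑ i, (cN i + cL i : ℝ) * (tt r i * wZ a p * Q k (dl u u' i) p) ≤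
      2 * (wZ a p * SQ k u u' p) := fun p => by
    rw [SQ, Finset.mul_sum, Finset.mul_sum]
    refine Finset.sum_le_sum fun i _ => mul_le_mul (n_mem i).2.1 ?_ (mul_nonneg (w0 i p) Q_nonneg)
      zero_le_two
    rw [mul_assoc]
    exact mul_le_of_le_one_left (mul_nonneg (lZ.pos p).le Q_nonneg) (tm i).2
  have key := gron (L := δ + 304 * r + 33000 * 3 ^ k * μ / r ^ 2) hχ
    (ce fun i => cN i + cL i) (ce fun i => cL i - cN i)
    ((c1_sum Finset.univ fun i => cb i .b1).add (cs 0))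
    ((c1_sum Finset.univ fun i => cb i .b2).add (cs 1)) (fun p hp => ?_) ht
  · have cz : C1 fun p => χ p * (wZ a p * SQ k u u' p) := (h.c1SQ.mul lZ.th.sm).mul hχ.th.sm
    have cz' := (ce fun i => cN i + cL i).mul hχ.th.sm
    rw [← integral_const_mul, ← integral_const_mul]
    refine le_trans (integral_mono ((P354HU.int_sl cz.1.continuous cz.2 t).const_mul _)
      (P354HU.int_sl cz'.1.continuous cz'.2 t) fun x => ?_) (key.trans
      (mul_le_mul_of_nonneg_left (integral_mono (P354HU.int_sl cz'.1.continuous cz'.2 0)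
      ((P354HU.int_sl cz.1.continuous cz.2 0).const_mul _) fun x => ?_) (Real.exp_pos _).le))
    · exact (mul_left_comm _ _ _).trans_le
        (mul_le_mul_of_nonneg_left ((low _).trans (low2 _)) (hχ.nn _))
    · exact (mul_le_mul_of_nonneg_left (up _) (hχ.nn _)).trans_eq (mul_left_comm _ _ _)
  refine ⟨abs_flux fun i => mul_nonneg (w0 i p) Q_nonneg, ?_⟩
  have rg := ha.rg hc hp.1
  have Z0 := (lZ.pos p).le
  have S0 : 0 ≤ SQ k u u' p := SQ_nonneg
  have p3 : (0 : ℝ) ≤ 3 ^ k := by positivity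
  set St := ∑ i, tt r i * wZ a p * Q k (dl u u' i) p with hSt
  have St0 : ∀ i, tt r i * wZ a p * Q k (dl u u' i) p ≤ St := fun i =>
    Finset.single_le_sum (f := fun i => tt r i * wZ a p * Q k (dl u u' i) p)
      (fun i _ => mul_nonneg (w0 i p) Q_nonneg) (Finset.mem_univ i)
  have St1 : 0 ≤ St := (mul_nonneg (w0 .O p) Q_nonneg).trans (St0 .O)
  have sy := mul_le_mul_of_nonneg_left (h.sym (k := k) (m := μ) fun b A =>
    (hb.P hp (by omega) b A).trans (mul_le_of_le_one_right hμ rg.E1)) Z0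
  have each : ∀ i, dt (fun p => (cN i + cL i : ℝ) * (tt r i * wZ a p * Q k (dl u u' i) p)) p +
      dx 0 (fun p => (cL i - cN i : ℝ) * (tt r i * wZ a p * Q k (dl u u' i) p)) p +
      D 0 (fun p => cL i * (tt r i * wZ a p * (u' .b1 p * Q k (dl u u' i) p))) p +
      D 1 (fun p => cL i * (tt r i * wZ a p * (u' .b2 p * Q k (dl u u' i) p))) p ≤
      δ * (tt r i * wZ a p * Q k (dl u u' i) p) - 2 * (wZ a p * B k (dl u u' i) (aT u u' i) p) +
        (8 * r * St + 820 * 3 ^ k * μ * (wZ a p * SQ k u u' p)) := fun i => by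
    refine (h.point hp i (hw i) (w0 i p)).trans ?_
    have q0 : 0 ≤ Q k (dl u u' i) p := Q_nonneg
    have a1 : (cN i + cL i : ℝ) * dt (fun p => tt r i * wZ a p) p +
        (cL i - cN i : ℝ) * dx 0 (fun p => tt r i * wZ a p) p - κ * dmp i * (tt r i * wZ a p) ≤
        δ * (tt r i * wZ a p) := by
      have z : dt (wZ a) p = 0 := by
        have e : wZ a = fun p => 1 / a (lf 0 1 p) := rfl
        rw [e, dt_eq, dv_inv (th_lf ha.sm 0 1).dif (ha.pos _).ne',
          dv_lf (ha.sm.differentiable one_ne_zero _).hasDerivAt, lf_t, mul_zero, mul_zero]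
      have l := lZ.der p
      rw [z, abs_zero, zero_add] at l
      rw [dt_eq, dx_eq, dv_cmul lZ.th.dif, dv_cmul lZ.th.dif]
      simp only
      rw [← dt_eq, ← dx_eq, z]
      have b1 : (cL i - cN i : ℝ) * dx 0 (wZ a) p ≤ δ * wZ a p :=
        (le_abs_self _).trans ((abs_mul _ _).le.trans
          ((mul_le_of_le_one_left (abs_nonneg _) (n_mem i).2.2.1).trans l))
      have b2 := mul_le_mul_of_nonneg_left b1 (t0 i)
      have b3 : 0 ≤ κ * dmp i * (tt r i * wZ a p) := mul_nonneg (by positivity) (w0 i p)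
      linarith
    have a1 := mul_le_mul_of_nonneg_right a1 q0
    have a2 : tt r i * B k (dl u u' i) (aT u u' i) p = B k (dl u u' i) (aT u u' i) p := by
      rw [h.B_aT]
      rcases hL : ang i with _ | ⟨t, L⟩
      · simp
      · rw [tt, ang_psi i t (hL ▸ List.mem_cons_self), cond_true, one_mul]
    have a3 : -(2 * (tt r i * wZ a p) * B k (dl u u' i) (lT u u' i) p) ≤ 8 * r * St := by
      rw [h.B_lT, ← List.sum_map_mul_left, list_neg]
      refine (list_le _ (fun t => t.1) _ (M := 2 * r * St) (by positivity) (fun t ht => ?_)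
        (cnt_lin i)).trans (le_of_eq (by push_cast; ring))
      obtain ⟨e1, e2⟩ := lin_psi i t ht
      have s1 := St0 i
      have s2 := St0 t.2
      rw [tt, e1, cond_false, ← N_sq] at s1
      rw [tt, e2, cond_true, ← N_sq] at s2
      rw [tt, e1, cond_false, mul_left_comm]
      refine neg_le_of ?_
      rw [abs_mul, abs_of_nonneg (by positivity)]
      have s3 := mul_le_mul_of_nonneg_left (abs_B (k := k) (f := dl u u' i) (g := dl u u' t.2)
        (p := p)) (show 0 ≤ 2 * (r ^ 2 * wZ a p) by positivity)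
      have s4 := mul_nonneg (mul_nonneg r0.le Z0)
        (sq_nonneg (r * N k (dl u u' i) p - N k (dl u u' t.2) p))
      have s5 := mul_le_mul_of_nonneg_left (add_le_add s1 s2) r0.le
      nlinarith
    have a4 : -(2 * (tt r i * wZ a p) * B k (dl u u' i) (rT u u' i) p) ≤
        800 * 3 ^ k * μ * (wZ a p * SQ k u u' p) := by
      rw [h.B_rT, ← List.sum_map_mul_left, list_neg]
      refine (list_le _ (fun t => t.1) _ (M := 4 * 3 ^ k * μ * (wZ a p * SQ k u u' p))
        (by positivity) (fun t _ => ?_) (cnt_terms i)).trans (le_of_eq (by push_cast; ring))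
      rw [mul_left_comm]
      refine neg_le_of ?_
      rw [abs_mul, abs_of_nonneg (mul_nonneg zero_le_two (w0 i p))]
      have s1 := (abs_B_mul (k := k) (f := dl u u' i) (p := p) (h.smc t.2.2.1 t.2.2.2)
        (h.smd t.2.1)).trans (mul_le_mul_of_nonneg_left (mul_le_mul ((hb.cf hp hk _ _).trans
          (mul_le_mul_of_nonneg_left (rg.w_le _) hμ)) (NN_le_SQ _ _) (mul_nonneg N_nonneg N_nonneg)
          (by positivity)) p3)
      refine (mul_le_mul (mul_le_mul_of_nonneg_left (mul_le_of_le_one_left Z0 (tm i).2)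
        zero_le_two) s1 (abs_nonneg _) (by positivity)).trans (le_of_eq (by ring))
    have a5 : cL i * (tt r i * wZ a p) * ((N (k + 1) (u' .b1) p + N (k + 1) (u' .b2) p) *
        Q k (dl u u' i) p) ≤ 1 * wZ a p * ((μ * 2 + μ * 2) * SQ k u u' p) := by
      have b : ∀ m, N (k + 1) (u' m) p ≤ μ * 2 := fun m => ((N_mono (by omega)).trans
        (hb p hp m).2).trans (mul_le_mul_of_nonneg_left (rg.w_le _) hμ)
      exact mul_le_mul (mul_le_mul (n_mem i).2.2.2.2 (mul_le_of_le_one_left Z0 (tm i).2) (w0 i p)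
        zero_le_one) (mul_le_mul (add_le_add (b _) (b _)) (Q_le_SQ i) q0 (by positivity))
        (mul_nonneg (add_nonneg N_nonneg N_nonneg) q0) (by positivity)
    have a5 := mul_le_mul_of_nonneg_left a5 (show (0 : ℝ) ≤ 5 * 3 ^ k by positivity)
    have a2 := congrArg (fun z => 2 * wZ a p * z) a2
    linarith
  have tot := Finset.sum_le_sum fun i (_ : i ∈ Finset.univ) => each i
  rw [dt_eq, dx_eq, D_eq, D_eq, dv_add (c1_sum _ fun i => cb i .b1).dif (cs 0).dif,
    dv_add (c1_sum _ fun i => cb i .b2).dif (cs 1).dif,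
    dv_sum _ fun i => ((cq i).mul contDiff_const).dif,
    dv_sum _ fun i => ((cq i).mul contDiff_const).dif, dv_sum _ fun i => (cb i .b1).dif,
    dv_sum _ fun i => (cb i .b2).dif, dv_mul lZ.th.dif (h.c1sa 0).dif,
    dv_mul lZ.th.dif (h.c1sa 1).dif]
  simp only [← D_eq, lZ.th.ang, zero_mul, zero_add]
  simp only [Finset.sum_add_distrib, Finset.sum_sub_distrib, ← Finset.mul_sum, Finset.sum_const,
    Finset.card_univ, card_Ix, nsmul_eq_mul, dt_eq, dx_eq] at tot
  rw [← hSt] at tot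
  have l1 := low p
  have l2 := low2 p
  rw [← hSt] at l1 l2
  have d0 := ha.dnn
  have l3 : 33000 * 3 ^ k * μ * (wZ a p * SQ k u u' p) ≤ 33000 * 3 ^ k * μ / r ^ 2 * St := by
    rw [div_mul_eq_mul_div, le_div_iff₀ (by positivity), mul_assoc _ _ (r ^ 2), mul_comm _ (r ^ 2)]
    exact mul_le_mul_of_nonneg_left l1 (by positivity)
  have l4 := mul_le_mul_of_nonneg_left l2
    (show 0 ≤ δ + 304 * r + 33000 * 3 ^ k * μ / r ^ 2 by positivity)
  have l5 : 0 ≤ 3 ^ k * μ * (wZ a p * SQ k u u' p) := by positivity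
  push_cast at tot
  linarith

end

end Vale.Agent.P354D
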