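import Vale.Agent.P354D.EX

/-!
The ghost weight estimate for the even components of the difference.
-/

open scoped ContDiff
open Set MeasureTheory

namespace Vale.Agent.P354D

open Vale.Agent.P354H Vale.Agent.P354C

noncomputable section

/-- The good term and the source. -/
def GG (a : ℝ → ℝ) (c r : ℝ) (k : ℕ) (u u' : Ix → R4 → ℝ) (p : R4) : ℝ :=
  ∑ i, tt r i * gC (wA a p) (wB a p) (wE c p) (cl i) * Q k (dl u u' i) p
def SS (a : ℝ → ℝ) (c : ℝ) (k : ℕ) (u u' : Ix → R4 → ℝ) (p : R4) : ℝ :=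
  sgm (wA a p) (wB a p) (wE c p) * SQ (k + 1) u u' p

variable {κ T : ℝ} {u u' : Ix → R4 → ℝ} {k : ℕ} {p : R4} {a Aa : ℝ → ℝ} {δ I c μ r θ : ℝ}
  {χ : R4 → ℝ}

theorem Wa.th_g (h : Wa a Aa δ I) (hc : 0 ≤ c) (m : Cls) :
    Th fun p => gC (wA a p) (wB a p) (wE c p) m := by
  by_cases e : m = .O
  · subst e
    exact th_const 0
  · exact (h.lg_g hc e).th

theorem Df.c1G (h : Df κ T u u') (ha : Wa a Aa δ I) (hc : 0 ≤ c) : C1 (GG a c r k u u') :=
  c1_sum _ fun i => (h.c1Q i).mul ((th_const _).mul (ha.th_g hc _)).sm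

theorem Df.c1S (h : Df κ T u u') (ha : Wa a Aa δ I) (hc : 0 ≤ c) : C1 (SS a c k u u') :=
  h.c1SQ.mul ((lgE hc).th.mul (ha.lgA.inv.th.add ha.lgB.inv.th)).sm

theorem G_le (rg : Rg (wA a p) (wB a p) (wE c p)) (r0 : 0 < r) (r1 : r ≤ 1) (i : Ix) :
    tt r i * gC (wA a p) (wB a p) (wE c p) (cl i) * N k (dl u u' i) p ^ 2 ≤ GG a c r k u u' p := by
  rw [N_sq]
  exact Finset.single_le_sum
    (f := fun i => tt r i * gC (wA a p) (wB a p) (wE c p) (cl i) * Q k (dl u u' i) p)
    (fun i _ => mul_nonneg (mul_nonneg ((sq_nonneg r).trans (tt_mem r0 r1 i).1) (rg.g_nn _))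
      Q_nonneg) (Finset.mem_univ i)

theorem G_nn (rg : Rg (wA a p) (wB a p) (wE c p)) (r0 : 0 < r) (r1 : r ≤ 1) :
    0 ≤ GG a c r k u u' p :=
  (mul_nonneg (mul_nonneg ((sq_nonneg r).trans (tt_mem r0 r1 .O).1) (rg.g_nn _))
    (sq_nonneg _)).trans (G_le rg r0 r1 .O)

theorem S_le (rg : Rg (wA a p) (wB a p) (wE c p)) (i : Ix) {y : ℝ} (y0 : 0 ≤ y)
    (hy : y ≤ N (k + 1) (dl u u' i) p) :
    sgm (wA a p) (wB a p) (wE c p) * y ^ 2 ≤ SS a c k u u' p :=
  mul_le_mul_of_nonneg_left ((pow_le_pow_left₀ y0 hy 2).trans (N_sq.le.trans (Q_le_SQ i))) rg.s_nn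

theorem S_nn (rg : Rg (wA a p) (wB a p) (wE c p)) : 0 ≤ SS a c k u u' p :=
  mul_nonneg rg.s_nn SQ_nonneg

theorem ghost_each (h : Df κ T u u') (ha : Wa a Aa δ I) (hc : 0 ≤ c) (hμ : 0 ≤ μ)
    (hb : Bds a c μ T u u') (hk : k ≤ 3) (r0 : 0 < r) (r1 : r ≤ 1) (h1 : θ ≤ 2 / I) (h2 : θ ≤ c)
    (h3 : 8 * δ + 3 * c ≤ 2 * κ) (hp : p.1 ∈ Icc 0 T) (i : Ix) :
    dt (fun p => (cN i + cL i : ℝ) * (tt r i * om a Aa I c (cl i) p * Q k (dl u u' i) p)) p +
      dx 0 (fun p => (cL i - cN i : ℝ) * (tt r i * om a Aa I c (cl i) p * Q k (dl u u' i) p)) p +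
      D 0 (fun p => cL i * (tt r i * om a Aa I c (cl i) p * (u' .b1 p * Q k (dl u u' i) p))) p +
      D 1 (fun p => cL i * (tt r i * om a Aa I c (cl i) p * (u' .b2 p * Q k (dl u u' i) p))) p ≤
      -θ * (tt r i * gC (wA a p) (wB a p) (wE c p) (cl i) * Q k (dl u u' i) p) +
        ((48 * r + 3100 * 3 ^ k * μ / r) * GG a c r k u u' p +
          1250 * 3 ^ k * μ * SS a c k u u' p) := by
  have tm := tt_mem r0 r1
  have t0 : ∀ i, 0 ≤ tt r i := fun i => (sq_nonneg r).trans (tm i).1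
  have rg := ha.rg hc hp.1
  have G0 : 0 ≤ GG a c r k u u' p := G_nn rg r0 r1
  have S0 : 0 ≤ SS a c k u u' p := S_nn rg
  have th := ha.th_om hc (cl i)
  obtain ⟨o0, o1⟩ := ha.om_le hc (cl i) hp.1
  have w0 := mul_nonneg (t0 i) o0
  refine (h.point hp i ((th_const _).mul th) w0).trans ?_
  rw [dt_eq, dx_eq, dv_cmul th.dif, dv_cmul th.dif]
  simp only
  rw [← dt_eq, ← dx_eq]
  by_cases hi : cl i = .O
  · have e : om a Aa I c .O = fun _ => 0 := rfl
    rw [hi, e, dt_eq, dx_eq, dv_const, dv_const]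
    simp only [gC, mul_zero, zero_mul, add_zero, sub_zero, zero_add]
    positivity
  have q0 : 0 ≤ Q k (dl u u' i) p := Q_nonneg
  have p3 : (0 : ℝ) ≤ 3 ^ k := by positivity
  have a1 := mul_le_mul_of_nonneg_right (mul_le_mul_of_nonneg_left (ha.good hc h1 h2 h3 hi hp.1)
    (t0 i)) q0
  set G := GG a c r k u u' p
  set S := SS a c k u u' p
  set o := oC (wA a p) (wB a p) (wE c p) (cl i)
  set w := tt r i * om a Aa I c (cl i) p
  have o0' : 0 ≤ o := rg.o_nn _
  have w1 : w ≤ 3 * (tt r i * o) := (mul_le_mul_of_nonneg_left o1 (t0 i)).trans_eq (by ring)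
  have gi := G_le (k := k) (u := u) (u' := u') rg r0 r1
  have g0 : ∀ j, 0 ≤ tt r j * gC (wA a p) (wB a p) (wE c p) (cl j) := fun j =>
    mul_nonneg (t0 j) (rg.g_nn _)
  have src : ∀ j y, 0 ≤ y → y ≤ N (k + 1) (dl u u' j) p →
      2 * w * (wE c p * (N k (dl u u' i) p * y)) ≤ 3 * (G + 2 * S) := fun j y y0 hy => by
    have s1 := amgm (z := tt r i * (o * wE c p)) (x := N k (dl u u' i) p) (y := y) (g0 i)
      (mul_nonneg zero_le_two rg.s_nn) (by
        have := mul_le_mul (mul_le_of_le_one_right (t0 i) (tm i).2) (rg.src (cl i)) (sq_nonneg _)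
          (t0 i)
        linarith)
    have s2 := S_le rg j y0 hy
    have s3 := mul_le_mul_of_nonneg_right w1
      (mul_nonneg rg.E0.le (mul_nonneg (N_nonneg (k := k) (f := dl u u' i) (p := p)) y0))
    linarith [gi i]
  have a2 : -(2 * w * B k (dl u u' i) (aT u u' i) p) ≤ 24 * 3 ^ k * μ * (G + 2 * S) := by
    rw [h.B_aT, ← List.sum_map_mul_left, list_neg]
    refine (list_le _ (fun t => t.1) _ (M := 6 * 3 ^ k * μ * (G + 2 * S))
      (by positivity) (fun t _ => ?_) (cnt_ang i)).trans (le_of_eq (by push_cast; ring))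
    rw [mul_left_comm]
    refine neg_le_of ?_
    rw [abs_mul, abs_of_nonneg (mul_nonneg zero_le_two w0)]
    have f : ∀ A, 2 * w * |B k (dl u u' i) (fun p => u' (Pix t.2.1 A) p * D A (dl u u' t.2.2) p) p|
        ≤ 3 ^ k * μ * (3 * (G + 2 * S)) := fun A => by
      have s1 := (abs_B_mul (k := k) (f := dl u u' i) (p := p) (h.sm' (Pix t.2.1 A))
        ((h.smd t.2.2).D A)).trans (mul_le_mul_of_nonneg_left (mul_le_mul_of_nonneg_right
          (hb.P hp (by omega) _ _) (mul_nonneg N_nonneg N_nonneg)) p3)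
      have s2 := mul_le_mul_of_nonneg_left (src t.2.2 _ N_nonneg (N_D A)) (mul_nonneg p3 hμ)
      have s3 := mul_le_mul_of_nonneg_left s1 (mul_nonneg zero_le_two w0)
      linarith
    have f2 := mul_le_mul_of_nonneg_left (abs_add_le
      (B k (dl u u' i) (fun p => u' (Pix t.2.1 0) p * D 0 (dl u u' t.2.2) p) p)
      (B k (dl u u' i) (fun p => u' (Pix t.2.1 1) p * D 1 (dl u u' t.2.2) p) p))
      (mul_nonneg zero_le_two w0)
    linarith [f 0, f 1]
  have a3 : -(2 * w * B k (dl u u' i) (lT u u' i) p) ≤ 48 * r * G := by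
    rw [h.B_lT, ← List.sum_map_mul_left, list_neg]
    refine (list_le _ (fun t => t.1) _ (M := 12 * r * G) (by positivity) (fun t ht => ?_)
      (cnt_lin i)).trans (le_of_eq (by push_cast; ring))
    obtain ⟨e1, e2⟩ := lin_psi i t ht
    have e3 : tt r i = r ^ 2 := by rw [tt, e1, cond_false]
    have e4 : tt r t.2 = 1 := by rw [tt, e2, cond_true]
    rw [mul_left_comm]
    refine neg_le_of ?_
    rw [abs_mul, abs_of_nonneg (mul_nonneg zero_le_two w0)]
    have s1 := amgm (z := tt r i * o) (x := N k (dl u u' i) p) (y := N k (dl u u' t.2) p)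
      (mul_nonneg (mul_nonneg zero_le_two r0.le) (g0 i))
      (mul_nonneg (mul_nonneg zero_le_two r0.le) (g0 t.2)) (by
        have := mul_le_mul_of_nonneg_left (rg.master_lin (lin_ok i hi t ht)) (sq_nonneg (r ^ 2))
        rw [e4, e3]
        linarith)
    have s2 := mul_le_mul_of_nonneg_left (add_le_add (gi i) (gi t.2))
      (mul_nonneg zero_le_two r0.le)
    have s3 := mul_le_mul w1 (abs_B (k := k) (f := dl u u' i) (g := dl u u' t.2) (p := p))
      (abs_nonneg _) (mul_nonneg zero_le_three (mul_nonneg (t0 i) o0'))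
    linarith
  have a4 : -(2 * w * B k (dl u u' i) (rT u u' i) p) ≤
      200 * (3 ^ k * μ * (12 / r * G + 3 * (G + 2 * S))) := by
    rw [h.B_rT, ← List.sum_map_mul_left, list_neg]
    refine (list_le _ (fun t => t.1) _ (M := 3 ^ k * μ * (12 / r * G + 3 * (G + 2 * S)))
      (by positivity) (fun t ht => ?_) (cnt_terms i)).trans (le_of_eq (by push_cast; ring))
    rcases terms_ok i hi t ht with e | e
    · simp [e]
    rw [mul_left_comm]
    refine neg_le_of ?_
    rw [abs_mul, abs_of_nonneg (mul_nonneg zero_le_two w0)]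
    have nn : 0 ≤ N k (dl u u' i) p * N k (dl u u' t.2.1) p := mul_nonneg N_nonneg N_nonneg
    have s1 := (abs_B_mul (k := k) (f := dl u u' i) (p := p) (h.smc t.2.2.1 t.2.2.2)
      (h.smd t.2.1)).trans (mul_le_mul_of_nonneg_left (mul_le_mul_of_nonneg_right
        (hb.cf hp (by omega) _ _) nn) p3)
    have s2 := src t.2.1 _ N_nonneg (N_mono (Nat.le_succ k))
    have r2 : 0 ≤ 2 / r := by positivity
    have s3 := amgm (z := tt r i * (o * alC (wA a p) (wB a p) (cl t.2.2.1)))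
      (x := N k (dl u u' i) p) (y := N k (dl u u' t.2.1) p) (mul_nonneg r2 (g0 i))
      (mul_nonneg r2 (g0 t.2.1)) (by
        have b1 : tt r i ≤ tt r t.2.1 / r ^ 2 :=
          (tm i).2.trans ((one_le_div (by positivity)).2 (tm _).1)
        have b2 := mul_le_mul (mul_le_mul_of_nonneg_left b1 (t0 i)) (rg.master e) (sq_nonneg _)
          (mul_nonneg (t0 i) ((t0 i).trans b1))
        rw [mul_pow, sq (tt r i)]
        exact b2.trans_eq (by field_simp; ring))
    have s4 := mul_le_mul_of_nonneg_left (add_le_add (gi i) (gi t.2.1)) r2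
    have s5 := mul_le_mul_of_nonneg_right w1 (mul_nonneg (rg.al_nn (cl t.2.2.1)) nn)
    have s6 : 2 * w * ((alC (wA a p) (wB a p) (cl t.2.2.1) + wE c p) *
        (N k (dl u u' i) p * N k (dl u u' t.2.1) p)) ≤ 12 / r * G + 3 * (G + 2 * S) := by
      have e : 12 / r * G = 6 * (2 / r * G) := by ring
      linarith
    have s7 := mul_le_mul_of_nonneg_left s6 (mul_nonneg p3 hμ)
    have s8 := mul_le_mul_of_nonneg_left s1 (mul_nonneg zero_le_two w0)
    linarith
  have a5 : cL i * w * ((N (k + 1) (u' .b1) p + N (k + 1) (u' .b2) p) * Q k (dl u u' i) p) ≤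
      12 * μ * G := by
    by_cases v : cl i = .V
    · rw [(cl_V v).2.1]
      simp only [Int.cast_zero, zero_mul]
      positivity
    have b1 : N (k + 1) (u' .b1) p ≤ μ * (wB a p + wE c p) :=
      (N_mono (by omega)).trans (hb p hp .b1).2
    have b2 : N (k + 1) (u' .b2) p ≤ μ * (wB a p + wE c p) :=
      (N_mono (by omega)).trans (hb p hp .b2).2
    have b3 := mul_le_mul ((mul_le_of_le_one_left w0 (n_mem i).2.2.2.2).trans w1)
      (mul_le_mul_of_nonneg_right (add_le_add b1 b2) q0)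
      (mul_nonneg (add_nonneg N_nonneg N_nonneg) q0)
      (mul_nonneg zero_le_three (mul_nonneg (t0 i) o0'))
    have b4 := mul_le_mul_of_nonneg_left (rg.bterm v) (mul_nonneg (mul_nonneg hμ (t0 i)) q0)
    have b5 := mul_le_mul_of_nonneg_left (gi i) hμ
    rw [N_sq] at b5
    linarith
  have a5 := mul_le_mul_of_nonneg_left a5 (show (0 : ℝ) ≤ 5 * 3 ^ k by positivity)
  have a6 : 3 ^ k * μ * G ≤ 3 ^ k * μ / r * G :=
    mul_le_mul_of_nonneg_right (le_div_self (by positivity) r0 r1) G0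
  have a7 : 0 ≤ 3 ^ k * μ * S := by positivity
  have a8 : 0 ≤ 3 ^ k * μ / r * G := by positivity
  have e1 : 3 ^ k * μ * (12 / r * G) = 12 * (3 ^ k * μ / r * G) := by ring
  have e2 : 3100 * 3 ^ k * μ / r * G = 3100 * (3 ^ k * μ / r * G) := by ring
  linarith

/-- The initial energy. -/
def E0 (a : ℝ → ℝ) (χ : R4 → ℝ) (k : ℕ) (u u' : Ix → R4 → ℝ) : ℝ :=
  ∫ x, χ (0, x) * (wZ a (0, x) * SQ k u u' (0, x))

theorem C1.cont_int {f : R4 → ℝ} (h : C1 f) : Continuous fun s => ∫ x, f (s, x) :=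
  P354DI.cont_int h.1.continuous h.2

theorem C1.int {f : R4 → ℝ} (h : C1 f) (s : ℝ) : Integrable fun x => f (s, x) :=
  P354HU.int_sl h.1.continuous h.2 s

theorem E0_nn (ha : Wa a Aa δ I) (hχ : Cut χ) : 0 ≤ E0 a χ k u u' :=
  integral_nonneg fun _ => mul_nonneg (hχ.nn _) (mul_nonneg (ha.lgZ.pos _).le SQ_nonneg)

theorem source (h : Df κ T u u') (ha : Wa a Aa δ I) (hc : 0 < c) (hκ : 0 ≤ κ) (hμ : 0 ≤ μ)
    (hb : Bds a c μ T u u') (hk : k ≤ 3) (r0 : 0 < r) (r1 : r ≤ 1) (hχ : Cut χ) (hT : 0 ≤ T)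
    (h4 : 2 * δ + 304 * r + 33000 * 3 ^ (k + 1) * μ / r ^ 2 ≤ c / 2) :
    ∫ s in (0 : ℝ)..T, ∫ x, χ (s, x) * SS a c k u u' (s, x) ≤
      8 / (c * r ^ 2) * E0 a χ (k + 1) u u' := by
  have e0 := E0_nn (k := k + 1) (u := u) (u' := u') ha hχ
  have cS := (h.c1S (k := k) ha hc.le).mul hχ.th.sm
  have cz : C1 fun p => χ p * (wZ a p * SQ (k + 1) u u' p) :=
    (h.c1SQ.mul ha.lgZ.th.sm).mul hχ.th.sm
  have b : ∀ s ∈ Icc 0 T, ∫ x, χ (s, x) * SS a c k u u' (s, x) ≤
      4 / r ^ 2 * E0 a χ (k + 1) u u' * Real.exp (-(c / 2) * s) := fun s hs => by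
    have b1 := crude (k := k + 1) h ha hc.le hκ hμ hb (by omega) r0 r1 hχ hs
    have b2 : ∫ x, χ (s, x) * SS a c k u u' (s, x) ≤ 2 * Real.exp (-(c - δ) * s) *
        ∫ x, χ (s, x) * (wZ a (s, x) * SQ (k + 1) u u' (s, x)) := by
      rw [← integral_const_mul]
      refine integral_mono (cS.int s) ((cz.int s).const_mul _) fun x => ?_
      have := mul_le_mul_of_nonneg_left (mul_le_mul_of_nonneg_right
        (ha.sgm_le (c := c) (p := (s, x)) hs.1) (SQ_nonneg (k := k + 1) (u := u) (u' := u')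
          (p := (s, x)))) (hχ.nn (s, x))
      exact this.trans_eq (by ring)
    rw [mul_comm, ← le_div_iff₀ (by positivity)] at b1
    refine (b2.trans (mul_le_mul_of_nonneg_left b1 (by positivity))).trans ?_
    have b3 : Real.exp (-(c - δ) * s) *
        Real.exp ((δ + 304 * r + 33000 * 3 ^ (k + 1) * μ / r ^ 2) * s) ≤
        Real.exp (-(c / 2) * s) := by
      rw [← Real.exp_add, ← add_mul]
      exact Real.exp_le_exp.2 (mul_le_mul_of_nonneg_right (by linarith) hs.1)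
    have b4 := mul_le_mul_of_nonneg_left b3 (show 0 ≤ 4 / r ^ 2 * E0 a χ (k + 1) u u' by positivity)
    refine le_trans (le_of_eq ?_) b4
    unfold E0
    ring
  refine (intervalIntegral.integral_mono_on hT (cS.cont_int.intervalIntegrable _ _)
    (Continuous.intervalIntegrable (by fun_prop) _ _) b).trans ?_
  have d : ∀ s ∈ uIcc 0 T, HasDerivAt (fun s => -(2 / c) * Real.exp (-(c / 2) * s))
      (Real.exp (-(c / 2) * s)) s := fun s _ => by
    refine (((hasDerivAt_id s).const_mul (-(c / 2))).exp.const_mul (-(2 / c))).congr_deriv ?_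
    simp only [id]
    field_simp
  rw [intervalIntegral.integral_const_mul, intervalIntegral.integral_eq_sub_of_hasDerivAt d
    (Continuous.intervalIntegrable (by fun_prop) _ _), mul_zero, Real.exp_zero]
  have b5 : -(2 / c) * Real.exp (-(c / 2) * T) - -(2 / c) * 1 ≤ 2 / c := by
    have : 0 ≤ 2 / c * Real.exp (-(c / 2) * T) := by positivity
    linarith
  refine (mul_le_mul_of_nonneg_left b5 (by positivity)).trans (le_of_eq ?_)
  field_simp
  ring

/-- **The ghost weight estimate.** -/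
theorem ghost (h : Df κ T u u') (ha : Wa a Aa δ I) (hc : 0 < c) (hμ : 0 ≤ μ)
    (hb : Bds a c μ T u u') (hk : k ≤ 3) (r0 : 0 < r) (r1 : r ≤ 1) (h1 : θ ≤ 2 / I) (h2 : θ ≤ c)
    (h3 : 8 * δ + 3 * c ≤ 2 * κ) (hχ : Cut χ) (hT : 0 ≤ T)
    (h5 : 38 * (48 * r + 3100 * 3 ^ k * μ / r) ≤ θ / 2) :
    θ / 2 * ∫ s in (0 : ℝ)..T, ∫ x, χ (s, x) * GG a c r k u u' (s, x) ≤
      24 * E0 a χ (k + 1) u u' +
        47500 * 3 ^ k * μ * ∫ s in (0 : ℝ)..T, ∫ x, χ (s, x) * SS a c k u u' (s, x) := by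
  have tm := tt_mem r0 r1
  have t0 : ∀ i, 0 ≤ tt r i := fun i => (sq_nonneg r).trans (tm i).1
  have hw : ∀ i, Th fun p => tt r i * om a Aa I c (cl i) p := fun i =>
    (th_const _).mul (ha.th_om hc.le _)
  have w0 : ∀ i (p : R4), 0 ≤ p.1 → 0 ≤ tt r i * om a Aa I c (cl i) p * Q k (dl u u' i) p :=
    fun i p hp => mul_nonneg (mul_nonneg (t0 i) (ha.om_le hc.le _ hp).1) Q_nonneg
  have cq : ∀ i, C1 fun p => tt r i * om a Aa I c (cl i) p * Q k (dl u u' i) p := fun i =>
    (h.c1Q i).mul (hw i).sm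
  have cb : ∀ i m, C1 fun p => (cL i : ℝ) *
      (tt r i * om a Aa I c (cl i) p * (u' m p * Q k (dl u u' i) p)) :=
    fun i m => (((h.c1Q i).mul (h.sm' m).one).mul (hw i).sm).mul contDiff_const
  have ce : ∀ z : Ix → ℝ, C1 fun p => ∑ i, z i *
      (tt r i * om a Aa I c (cl i) p * Q k (dl u u' i) p) :=
    fun z => c1_sum _ fun i => (cq i).mul contDiff_const
  have cG := h.c1G (r := r) (k := k) ha hc.le
  have cS := h.c1S (k := k) ha hc.le
  have cρ := (cG.mul (contDiff_const (c := -(θ / 2)))).add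
    (cS.mul (contDiff_const (c := 47500 * 3 ^ k * μ)))
  have key := bulk hχ (ce fun i => cN i + cL i) (ce fun i => cL i - cN i)
    (c1_sum Finset.univ fun i => cb i .b1) (c1_sum Finset.univ fun i => cb i .b2)
    cρ.1.continuous cρ.2 hT fun p hp => ⟨abs_flux fun i => w0 i p hp.1, by
      have tot := Finset.sum_le_sum fun i (_ : i ∈ Finset.univ) =>
        ghost_each h ha hc.le hμ hb hk r0 r1 h1 h2 h3 hp i
      rw [dt_eq, dx_eq, D_eq, D_eq, dv_sum _ fun i => ((cq i).mul contDiff_const).dif,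
        dv_sum _ fun i => ((cq i).mul contDiff_const).dif, dv_sum _ fun i => (cb i .b1).dif,
        dv_sum _ fun i => (cb i .b2).dif]
      simp only [Finset.sum_add_distrib, ← Finset.mul_sum, Finset.sum_const, Finset.card_univ,
        card_Ix, nsmul_eq_mul, dt_eq, dx_eq, D_eq] at tot
      have k1 := mul_le_mul_of_nonneg_right h5
        (G_nn (k := k) (u := u) (u' := u') (ha.rg hc.le hp.1) r0 r1)
      have e : GG a c r k u u' p =
        ∑ i, tt r i * gC (wA a p) (wB a p) (wE c p) (cl i) * Q k (dl u u' i) p := rfl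
      rw [← e] at tot
      refine le_trans tot ?_
      push_cast
      linarith⟩
  have k0 : 0 ≤ ∫ x, χ (T, x) * ∑ i, (cN i + cL i : ℝ) *
      (tt r i * om a Aa I c (cl i) (T, x) * Q k (dl u u' i) (T, x)) :=
    integral_nonneg fun x => mul_nonneg (hχ.nn _) (Finset.sum_nonneg fun i _ =>
      mul_nonneg (zero_le_one.trans (n_mem i).1) (w0 i _ hT))
  have k1 : ∫ x, χ (0, x) * ∑ i, (cN i + cL i : ℝ) *
      (tt r i * om a Aa I c (cl i) (0, x) * Q k (dl u u' i) (0, x)) ≤ 24 * E0 a χ (k + 1) u u' := by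
    rw [E0, ← integral_const_mul]
    refine integral_mono (((ce fun i => cN i + cL i).mul hχ.th.sm).int 0)
      ((((h.c1SQ.mul ha.lgZ.th.sm).mul hχ.th.sm).int 0).const_mul _) fun x => ?_
    simp only
    rw [mul_left_comm]
    refine mul_le_mul_of_nonneg_left ?_ (hχ.nn _)
    rw [SQ, Finset.mul_sum, Finset.mul_sum]
    refine Finset.sum_le_sum fun i _ => ?_
    have rg := ha.rg hc.le (p := (0, x)) le_rfl
    have b1 := (ha.om_le hc.le (cl i) (p := (0, x)) le_rfl)
    have b2 := rg.oE (cl i)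
    have b3 := ha.sgm_le (c := c) (p := (0, x)) le_rfl
    have e : wE c (0, x) = 1 := by simp [wE_eq]
    rw [mul_zero, Real.exp_zero] at b3
    nth_rewrite 2 [e] at b2
    have b4 : tt r i * om a Aa I c (cl i) (0, x) ≤ 12 * wZ a (0, x) := by
      linarith [mul_le_of_le_one_left b1.1 (tm i).2]
    refine (mul_le_mul (n_mem i).2.1 (mul_le_mul b4 Q_mono Q_nonneg
      (mul_nonneg (by norm_num) (ha.lgZ.pos _).le)) (w0 i _ le_rfl) zero_le_two).trans_eq ?_
    ring
  have cG' := cG.mul hχ.th.sm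
  have cS' := cS.mul hχ.th.sm
  have e : ∀ s, ∫ x, χ (s, x) * (-(θ / 2) * GG a c r k u u' (s, x) +
      47500 * 3 ^ k * μ * SS a c k u u' (s, x)) =
      -(θ / 2) * (∫ x, χ (s, x) * GG a c r k u u' (s, x)) +
        47500 * 3 ^ k * μ * ∫ x, χ (s, x) * SS a c k u u' (s, x) := fun s => by
    rw [← integral_const_mul, ← integral_const_mul,
      ← integral_add ((cG'.int s).const_mul _) ((cS'.int s).const_mul _)]
    exact integral_congr_ae (ae_of_all _ fun x => by simp only; ring)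
  simp only [e] at key
  rw [intervalIntegral.integral_add ((cG'.cont_int.intervalIntegrable _ _).const_mul _)
    ((cS'.cont_int.intervalIntegrable _ _).const_mul _), intervalIntegral.integral_const_mul,
    intervalIntegral.integral_const_mul] at key
  linarith

end

end Vale.Agent.P354D
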