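import Vale.Agent.P354D.EY

/-!
The increments of the undamped components along their characteristics.
-/

open scoped ContDiff
open Set MeasureTheory

namespace Vale.Agent.P354D

open Vale.Agent.P354H Vale.Agent.P354C

noncomputable section

/-- The right side of the transport equation of the component i. -/
def FF (u u' : Ix → R4 → ℝ) (i : Ix) (p : R4) : ℝ := -1 * (bT u u' i p + aT u u' i p + rT u u' i p)

variable {κ T : ℝ} {u u' : Ix → R4 → ℝ} {p : R4} {a Aa : ℝ → ℝ} {δ I c μ r θ : ℝ}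

theorem cs_list {α : Type} (L : List α) {F : α → R4 → ℝ} (h : ∀ t, HasCompactSupport (F t)) :
    HasCompactSupport fun p => (L.map fun t => F t p).sum := by
  induction L with
  | nil => exact HasCompactSupport.zero
  | cons t L ih => exact (h t).add ih

theorem Df.cs2 (h : Df κ T u u') (m m' j : Ix) :
    HasCompactSupport fun p => u' m p * D 0 (dl u u' j) p + u' m' p * D 1 (dl u u' j) p :=
  HasCompactSupport.add (cs_dv (h.cs j) _).mul_left (cs_dv (h.cs j) _).mul_left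

theorem Df.smF (h : Df κ T u u') (i : Ix) : Sm (FF u u' i) :=
  contDiff_const.mul (((h.smb i).add (h.sma i)).add (h.smr i))

theorem Df.csF (h : Df κ T u u') (i : Ix) : HasCompactSupport (FF u u' i) :=
  HasCompactSupport.mul_left (HasCompactSupport.add (HasCompactSupport.add (h.cs2 _ _ _).mul_left
    (cs_list _ fun _ => (h.cs2 _ _ _).mul_left))
    (cs_list _ fun _ => HasCompactSupport.mul_left (h.cs _).mul_left))

theorem zbound (h : Df κ T u u') (ha : Wa a Aa δ I) (hc : 0 ≤ c) (hμ : 0 ≤ μ)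
    (hb : Bds a c μ T u u') (r0 : 0 < r) (r1 : r ≤ 1) (hp : p.1 ∈ Icc 0 T) {i : Ix}
    (hi : cl i = .V ∨ cl i = .U) :
    oC (wA a p) (wB a p) (wE c p) (cl i) ^ 2 * Q 2 (FF u u' i) p ≤ 7500 ^ 2 * μ ^ 2 *
      (gC (wA a p) (wB a p) (wE c p) (cl i) * (GG a c r 3 u u' p / r ^ 2 + SS a c 3 u u' p)) := by
  have rg := ha.rg hc hp.1
  have G0 : 0 ≤ GG a c r 3 u u' p / r ^ 2 := div_nonneg (G_nn rg r0 r1) (sq_nonneg r)
  have S0 : 0 ≤ SS a c 3 u u' p := S_nn rg
  have hO : cl i ≠ .O := by rcases hi with e | e <;> simp [e]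
  have o0 := rg.o_nn (cl i)
  have g0 := rg.g_nn (cl i)
  set o := oC (wA a p) (wB a p) (wE c p) (cl i)
  set g := gC (wA a p) (wB a p) (wE c p) (cl i)
  have Y2 := Real.sq_sqrt (mul_nonneg g0 (add_nonneg G0 S0))
  have Y0 := Real.sqrt_nonneg (g * (GG a c r 3 u u' p / r ^ 2 + SS a c 3 u u' p))
  set Y := √(g * (GG a c r 3 u u' p / r ^ 2 + SS a c 3 u u' p))
  have ca : ∀ j m y, OK (cl i) (cl j) m = true → 0 ≤ y → y ≤ N 3 (dl u u' j) p →
      o * alC (wA a p) (wB a p) m * y ≤ 2 * Y := fun j m y e y0 hy => by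
    refine (abs_le_of_sq_le_sq' ?_ (by positivity)).2
    have b1 := G_le (k := 3) (u := u) (u' := u') rg r0 r1 j
    have b2 : gC (wA a p) (wB a p) (wE c p) (cl j) * y ^ 2 ≤ GG a c r 3 u u' p / r ^ 2 := by
      rw [le_div_iff₀ (by positivity), mul_comm, ← mul_assoc]
      exact (mul_le_mul (mul_le_mul_of_nonneg_right (tt_mem r0 r1 j).1 (rg.g_nn _))
        (pow_le_pow_left₀ y0 hy 2) (sq_nonneg _)
        (mul_nonneg ((sq_nonneg r).trans (tt_mem r0 r1 j).1) (rg.g_nn _))).trans b1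
    have b3 := mul_le_mul_of_nonneg_right (rg.master e) (sq_nonneg y)
    have b4 := mul_le_mul_of_nonneg_left b2 g0
    have b5 := mul_nonneg g0 S0
    rw [mul_pow, mul_pow 2, Y2]
    linarith
  have cb : ∀ j y, 0 ≤ y → y ≤ N 4 (dl u u' j) p → o * wE c p * y ≤ 2 * Y := fun j y y0 hy => by
    refine (abs_le_of_sq_le_sq' ?_ (by positivity)).2
    have b2 := mul_le_mul_of_nonneg_left (S_le (k := 3) rg j y0 hy) g0
    have b3 := mul_le_mul_of_nonneg_right (rg.src (cl i)) (sq_nonneg y)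
    have b4 := mul_nonneg g0 G0
    have b5 := mul_nonneg g0 S0
    rw [mul_pow, mul_pow 2, Y2]
    linarith
  have two : ∀ m m' j M, N 2 (u' m) p ≤ M → N 2 (u' m') p ≤ M →
      N 2 (fun p => u' m p * D 0 (dl u u' j) p + u' m' p * D 1 (dl u u' j) p) p ≤
        18 * (M * N 3 (dl u u' j) p) := fun m m' j M h1 h2 => by
    have M0 := N_nonneg.trans h1
    have b1 := (N_mul (k := 2) (p := p) (h.sm' m) ((h.smd j).D 0)).trans
      (mul_le_mul_of_nonneg_left (mul_le_mul h1 (N_D 0) N_nonneg M0) (by positivity))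
    have b2 := (N_mul (k := 2) (p := p) (h.sm' m') ((h.smd j).D 1)).trans
      (mul_le_mul_of_nonneg_left (mul_le_mul h2 (N_D 1) N_nonneg M0) (by positivity))
    have b3 := N_add (k := 2) (p := p) ((h.sm' m).mul ((h.smd j).D 0))
      ((h.sm' m').mul ((h.smd j).D 1))
    linarith
  have a1 : o * N 2 (bT u u' i) p ≤ 72 * (μ * Y) := by
    have e : bT u u' i = fun p =>
      cL i * (u' .b1 p * D 0 (dl u u' i) p + u' .b2 p * D 1 (dl u u' i) p) := rfl
    rw [e, N_cmul (h.sm2 _ _ _)]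
    rcases hi with v | v
    · rw [(cl_V v).2.1]
      simp only [Int.cast_zero, abs_zero, zero_mul, mul_zero]
      positivity
    rw [(cl_U v).2.1, Int.cast_one, abs_one, one_mul]
    have b1 := mul_le_mul_of_nonneg_left (two .b1 .b2 i _
      ((N_mono (by omega)).trans (hb p hp .b1).2) ((N_mono (by omega)).trans (hb p hp .b2).2)) o0
    have b2 := mul_le_mul_of_nonneg_left (add_le_add
      (ca i (cl .b1) _ (by rw [v]; rfl) N_nonneg le_rfl)
      (cb i _ N_nonneg (N_mono (Nat.le_succ 3)))) hμ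
    linarith
  have a2 : o * N 2 (aT u u' i) p ≤ 4 * (36 * (μ * Y)) := by
    refine (mul_le_mul_of_nonneg_left (N_list _ fun _ => contDiff_const.mul (h.sm2 _ _ _))
      o0).trans ?_
    rw [← List.sum_map_mul_left]
    refine (list_le _ (fun t => t.1) _ (M := 36 * (μ * Y)) (by positivity) (fun t _ => ?_)
      (cnt_ang i)).trans_eq (by norm_num)
    rw [N_cmul (h.sm2 _ _ _), mul_left_comm]
    refine mul_le_mul_of_nonneg_left ?_ (abs_nonneg _)
    have b1 := mul_le_mul_of_nonneg_left (two _ _ t.2.2 _ (hb.P hp (k := 2) (by omega) t.2.1 0)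
      (hb.P hp (by omega) t.2.1 1)) o0
    have b2 := mul_le_mul_of_nonneg_left (cb t.2.2 _ N_nonneg (N_mono (Nat.le_succ 3))) hμ
    linarith
  have a3 : o * N 2 (rT u u' i) p ≤ 200 * (36 * (μ * Y)) := by
    refine (mul_le_mul_of_nonneg_left
      (N_list _ fun _ => contDiff_const.mul ((h.smc _ _).mul (h.smd _))) o0).trans ?_
    rw [← List.sum_map_mul_left]
    refine (list_le _ (fun t => t.1) _ (M := 36 * (μ * Y)) (by positivity) (fun t ht => ?_)
      (cnt_terms i)).trans_eq (by norm_num)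
    rw [N_cmul ((h.smc _ _).mul (h.smd _)), mul_left_comm]
    rcases terms_ok i hO t ht with e | e
    · simp [e]
    refine mul_le_mul_of_nonneg_left ?_ (abs_nonneg _)
    have b1 := mul_le_mul_of_nonneg_left ((N_mul (k := 2) (p := p) (h.smc t.2.2.1 t.2.2.2)
      (h.smd t.2.1)).trans (mul_le_mul_of_nonneg_left (mul_le_mul_of_nonneg_right
        (hb.cf hp (by omega) _ _) N_nonneg) (by positivity))) o0
    have b2 := mul_le_mul_of_nonneg_left (add_le_add
      (ca t.2.1 _ _ e N_nonneg (N_mono (Nat.le_succ 2)))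
      (cb t.2.1 _ N_nonneg (N_mono (show 2 ≤ 4 by omega)))) hμ
    linarith
  have a4 : N 2 (FF u u' i) p ≤ N 2 (bT u u' i) p + N 2 (aT u u' i) p + N 2 (rT u u' i) p := by
    have e : FF u u' i = fun p => -1 * (bT u u' i p + aT u u' i p + rT u u' i p) := rfl
    rw [e, N_cmul (((h.smb i).add (h.sma i)).add (h.smr i)), abs_neg, abs_one, one_mul]
    exact (N_add ((h.smb i).add (h.sma i)) (h.smr i)).trans
      (add_le_add (N_add (h.smb i) (h.sma i)) le_rfl)
  have a5 : o * N 2 (FF u u' i) p ≤ 7500 * μ * Y := by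
    have := mul_le_mul_of_nonneg_left a4 o0
    have := mul_nonneg hμ Y0
    linarith
  have a6 := pow_le_pow_left₀ (mul_nonneg o0 N_nonneg) a5 2
  rwa [mul_pow, mul_pow, mul_pow, N_sq, Y2] at a6

theorem cut_lf {χ0 : ℝ → ℝ} (h1 : ContDiff ℝ 1 χ0) (h2 : ∀ y, 0 ≤ χ0 y) (h3 : Antitone χ0) {ε : ℝ}
    (hε : |ε| = 1) : Cut fun p => χ0 (lf 1 ε p) :=
  ⟨th_lf h1 1 ε, fun _ => h2 _, fun p => by
    rw [dt_eq, dx_eq, dv_lf (h1.differentiable one_ne_zero _).hasDerivAt,
      dv_lf (h1.differentiable one_ne_zero _).hasDerivAt, lf_t, lf_x, abs_mul, hε,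
      abs_of_nonpos h3.deriv_nonpos]
    linarith⟩

theorem Wa.int_h (ha : Wa a Aa δ I) (hc : 0 < c) {ε : ℝ} (hε : ε * ε = 1) (w : ℝ) :
    ∫ s in (0 : ℝ)..T, (a (lf 1 ε (s, w + ε * s, 0)) + wE c (s, w + ε * s, 0)) ≤ I + 1 / c := by
  have d : ∀ s ∈ uIcc 0 T, HasDerivAt (fun s => Aa (2 * s + ε * w) / 2 - Real.exp (-c * s) / c)
      (a (lf 1 ε (s, w + ε * s, 0)) + wE c (s, w + ε * s, 0)) s := fun s _ => by
    have d1 := ((ha.prim (2 * s + ε * w)).comp s
      (((hasDerivAt_id s).const_mul 2).add_const (ε * w))).div_const 2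
    have d2 := ((hasDerivAt_id s).const_mul (-c)).exp.div_const c
    refine (d1.sub d2).congr_deriv ?_
    have e : lf 1 ε (s, w + ε * s, 0) = 2 * s + ε * w := by
      rw [lf_ap]
      linear_combination s * hε
    rw [e, wE_eq]
    simp only [id]
    field_simp
    ring
  have c1 := ha.sm.continuous
  have c2 := (lgE hc.le).th.sm.continuous
  rw [intervalIntegral.integral_eq_sub_of_hasDerivAt d
    (Continuous.intervalIntegrable (by fun_prop) _ _), mul_zero, mul_zero, Real.exp_zero]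
  have : 0 ≤ Real.exp (-c * T) / c := by positivity
  linarith [ha.bd (2 * T + ε * w), ha.nn (0 + ε * w), ha.Ipos]

/-- The constants. -/
structure Sml (κ δ I c μ r θ : ℝ) : Prop where
  c0 : 0 < c
  μ0 : 0 ≤ μ
  μ1 : μ ≤ 1
  r0 : 0 < r
  r1 : r ≤ 1
  θ0 : 0 < θ
  h1 : θ ≤ 2 / I
  h2 : θ ≤ c
  h3 : 8 * δ + 3 * c ≤ 2 * κ
  h4 : 2 * δ + 304 * r + 33000 * 3 ^ (3 + 1) * μ / r ^ 2 ≤ c / 2
  h5 : 38 * (48 * r + 3100 * 3 ^ 3 * μ / r) ≤ θ / 2

/-- The constant of the estimate. -/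
def CZ (I c r θ : ℝ) : ℝ :=
  2 * (I + 1 / c) * 7500 ^ 2 *
    (2 / θ * (24 + 47500 * 3 ^ 3 * (8 / (c * r ^ 2))) / r ^ 2 + 8 / (c * r ^ 2))

/-- **The increments along the lines.** -/
theorem incr (h : Df κ T u u') (ha : Wa a Aa δ I) (hs : Sml κ δ I c μ r θ)
    (hb : Bds a c μ T u u') (hT : 0 ≤ T) {χ0 : ℝ → ℝ} (h1 : ContDiff ℝ 1 χ0) (h2 : ∀ y, 0 ≤ χ0 y)
    (h3 : Antitone χ0) {i : Ix} {ε : ℝ} (hi : (cl i = .V ∧ ε = -1) ∨ (cl i = .U ∧ ε = 1))
    (hl : lin i = []) :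
    ∃ H : ℝ → ℝ, Continuous H ∧ HasCompactSupport H ∧ (∀ w, 0 ≤ H w) ∧
      (∀ w y, ∀ t ∈ Icc 0 T, χ0 (-ε * w) / a w *
        (dl u u' i (t, w + ε * t, y) - dl u u' i (0, w, y)) ^ 2 ≤ H w) ∧
      ∫ w, H w ≤ CZ I c r θ * μ ^ 2 * E0 a (fun p => χ0 (lf 1 (-ε) p)) 4 u u' := by
  obtain ⟨hc, hμ, μ1, r0, r1, θ0, s1, s2, s3, s4, s5⟩ := hs
  have e1 : ε * ε = 1 := by rcases hi with ⟨-, e⟩ | ⟨-, e⟩ <;> simp [e]
  have e2 : |-ε| = 1 := by rcases hi with ⟨-, e⟩ | ⟨-, e⟩ <;> simp [e]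
  have hχ := cut_lf h1 h2 h3 e2
  have cG := h.c1G (r := r) (k := 3) ha hc.le
  have cS := h.c1S (k := 3) ha hc.le
  have cG' := cG.mul hχ.th.sm
  have cS' := cS.mul hχ.th.sm
  have cW := (cG'.mul (contDiff_const (c := 7500 ^ 2 * μ ^ 2 / r ^ 2))).add
    (cS'.mul (contDiff_const (c := 7500 ^ 2 * μ ^ 2)))
  have c1 := ha.sm.continuous
  have c2 := h1.continuous
  have c3 := (lgE hc.le).th.sm.continuous
  obtain ⟨H, k1, k2, k3, k4, k5⟩ := P354DI.line (dl u u' i) (FF u u' i) _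
    (fun p => a (lf 1 ε p) + wE c p) (fun w => χ0 (-ε * w) / a w) ε T (I + 1 / c) hT (h.smd i)
    (h.smF i) (h.csF i) cW.1.continuous cW.2
    (Continuous.div (by fun_prop) c1 fun w => (ha.pos w).ne')
    (fun w => div_nonneg (h2 _) (ha.pos w).le) (by fun_prop)
    (fun p => add_pos (ha.pos _) (Real.exp_pos _)) (fun _ _ _ _ => rfl) (ha.int_h hc e1)
    fun p hp => ⟨by
      have q := h.eqn hp i
      have z : lT u u' i p = 0 := by simp [lT, hl]
      rw [z] at q
      unfold FF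
      rcases hi with ⟨v, e⟩ | ⟨v, e⟩
      · obtain ⟨f1, f2, f3⟩ := cl_V v
        rw [f1, f2, f3] at q
        rw [e]
        push_cast at q
        linarith
      · obtain ⟨f1, f2, f3⟩ := cl_U v
        rw [f1, f2, f3] at q
        rw [e]
        push_cast at q
        linarith, by
      have z := zbound h ha hc.le hμ hb r0 r1 hp (i := i) (hi.imp And.left And.left)
      have f1 : -ε * (p.2.1 - ε * p.1) = lf 1 (-ε) p := by
        rw [lf_ap]
        linear_combination p.1 * e1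
      have f2 : a (p.2.1 - ε * p.1) = a (lf 1 (-ε) p) := by
        rw [← f1]
        rcases hi with ⟨-, e⟩ | ⟨-, e⟩
        · simp [e]
        · rw [e, neg_one_mul, ha.even]
      have f3 : oC (wA a p) (wB a p) (wE c p) (cl i) = 1 / a (lf 1 (-ε) p) ∧
          gC (wA a p) (wB a p) (wE c p) (cl i) = (a (lf 1 ε p) + wE c p) / a (lf 1 (-ε) p) := by
        rcases hi with ⟨v, e⟩ | ⟨v, e⟩
        · rw [v, e, neg_neg]
          exact ⟨rfl, rfl⟩
        · rw [v, e]
          exact ⟨rfl, rfl⟩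
      rw [f3.1, f3.2] at z
      have z2 := mul_le_mul_of_nonneg_left z
        (mul_nonneg (h2 (lf 1 (-ε) p)) (ha.pos (lf 1 (-ε) p)).le)
      have p0 := (ha.pos (lf 1 (-ε) p)).ne'
      rw [f1, f2]
      refine (le_of_eq ?_).trans (z2.trans_eq ?_)
      · field_simp
      · field_simp⟩
  refine ⟨H, k1, k2, k3, k4, k5.trans ?_⟩
  have hκ : 0 ≤ κ := by linarith [ha.dnn]
  have b1 := source (k := 3) h ha hc hκ hμ hb le_rfl r0 r1 hχ hT s4
  have b2 := ghost (k := 3) h ha hc hμ hb le_rfl r0 r1 s1 s2 s3 hχ hT s5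
  have e0 := E0_nn (k := 4) (u := u) (u' := u') ha hχ
  simp only [integral_add ((cG'.int _).const_mul _) ((cS'.int _).const_mul _), integral_const_mul]
  rw [intervalIntegral.integral_add ((cG'.cont_int.intervalIntegrable _ _).const_mul _)
    ((cS'.cont_int.intervalIntegrable _ _).const_mul _), intervalIntegral.integral_const_mul,
    intervalIntegral.integral_const_mul]
  set E := E0 a (fun p => χ0 (lf 1 (-ε) p)) 4 u u'
  have b3 := (mul_le_mul_of_nonneg_left b1 (show 0 ≤ 47500 * 3 ^ 3 * μ by positivity)).trans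
    (mul_le_mul_of_nonneg_right (mul_le_of_le_one_right (show (0 : ℝ) ≤ 47500 * 3 ^ 3 by norm_num)
      μ1) (show 0 ≤ 8 / (c * r ^ 2) * E by positivity))
  have b4 := b2.trans (add_le_add le_rfl b3)
  rw [mul_comm, ← le_div_iff₀ (by positivity)] at b4
  have i0 : 0 ≤ 2 * (I + 1 / c) := by have := ha.Ipos; positivity
  refine (mul_le_mul_of_nonneg_left (add_le_add
    (mul_le_mul_of_nonneg_left b4 (by positivity)) (mul_le_mul_of_nonneg_left b1 (by positivity)))
    i0).trans_eq ?_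
  unfold CZ
  field_simp

end

end Vale.Agent.P354D
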