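import Vale.Agent.P354D.Defs

/-!
Calculus of angular jets.
-/

open scoped ContDiff
open Set

namespace Vale.Agent.P354D

open Vale.Agent.P354H

/-- Smooth functions. -/
abbrev Sm (f : R4 → ℝ) : Prop := ContDiff ℝ ∞ f

/-- Derivative in the direction a. -/
noncomputable def dv (a : R4) (f : R4 → ℝ) (p : R4) : ℝ := fderiv ℝ f p a

theorem D_eq (A : Fin 2) (f : R4 → ℝ) : D A f = dv (0, e A.succ) f := rfl
theorem dt_eq (f : R4 → ℝ) : dt f = dv (1, 0) f := rfl
theorem dx_eq (j : Fin 3) (f : R4 → ℝ) : dx j f = dv (0, e j) f := rfl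

variable {f g h c : R4 → ℝ} {p : R4} {k : ℕ}

theorem Sm.dif (hf : Sm f) : Differentiable ℝ f := hf.differentiable (by simp)

theorem Sm.dv (hf : Sm f) (a : R4) : Sm (dv a f) :=
  (hf.fderiv_right (m := ∞) (by simp)).clm_apply contDiff_const

theorem Sm.D (hf : Sm f) (A : Fin 2) : Sm (D A f) := hf.dv _

theorem cs_dv (hf : HasCompactSupport f) (a : R4) : HasCompactSupport (dv a f) :=
  hf.fderiv_apply ℝ a

theorem dv_comm (hf : Sm f) (a b : R4) : dv a (dv b f) = dv b (dv a f) := by
  have h1 : Differentiable ℝ (fderiv ℝ f) :=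
    (hf.fderiv_right (m := ∞) (by simp)).differentiable (by simp)
  have h2 : ∀ a b p, dv a (dv b f) p = fderiv ℝ (fderiv ℝ f) p a b := fun a b p => by
    unfold dv
    rw [fderiv_clm_apply (h1 p) (differentiableAt_const _)]
    simp
  funext p
  rw [h2, h2]
  exact (hf.contDiffAt.isSymmSndFDerivAt (by
    rw [minSmoothness_of_isRCLikeNormedField]; exact WithTop.coe_le_coe.2 le_top)).eq a b

theorem dv_add (hf : Differentiable ℝ f) (hg : Differentiable ℝ g) (a : R4) :
    dv a (fun p => f p + g p) = fun p => dv a f p + dv a g p := by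
  funext p
  unfold dv
  rw [fderiv_fun_add (hf p) (hg p)]
  rfl

theorem dv_mul (hf : Differentiable ℝ f) (hg : Differentiable ℝ g) (a : R4) :
    dv a (fun p => f p * g p) = fun p => dv a f p * g p + f p * dv a g p := by
  funext p
  unfold dv
  rw [fderiv_fun_mul (hf p) (hg p)]
  simp only [add_apply, smul_apply, smul_eq_mul]
  ring

theorem dv_const (r : ℝ) (a : R4) : dv a (fun _ => r) = fun _ => 0 := by
  funext p
  simp [dv]

theorem dv_cmul (hf : Differentiable ℝ f) (r : ℝ) (a : R4) :
    dv a (fun p => r * f p) = fun p => r * dv a f p := by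
  rw [dv_mul (differentiable_const r) hf, dv_const]
  simp

theorem dv_sum {ι : Type} (s : Finset ι) {F : ι → R4 → ℝ} (hF : ∀ i, Differentiable ℝ (F i))
    (a : R4) : dv a (fun p => ∑ i ∈ s, F i p) = fun p => ∑ i ∈ s, dv a (F i) p := by
  funext p
  unfold dv
  rw [fderiv_fun_sum fun i _ => hF i p, sum_apply]

theorem B_sm (hf : Sm f) (hg : Sm g) : Sm (B k f g) := by
  induction k generalizing f g with
  | zero => exact hf.mul hg
  | succ k ih => exact ((hf.mul hg).add (ih (hf.D 0) (hg.D 0))).add (ih (hf.D 1) (hg.D 1))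

theorem B_cs (hf : HasCompactSupport f) : HasCompactSupport (B k f g) := by
  induction k generalizing f g with
  | zero => exact hf.mul_right
  | succ k ih => exact (hf.mul_right.add (ih (cs_dv hf _))).add (ih (cs_dv hf _))

theorem Q_sm (hf : Sm f) : Sm (Q k f) := B_sm hf hf

theorem Q_cs (hf : HasCompactSupport f) : HasCompactSupport (Q k f) := B_cs hf

theorem B_comm : B k f g p = B k g f p := by
  induction k generalizing f g with
  | zero => exact mul_comm _ _
  | succ k ih => simp only [B]; rw [mul_comm, ih, ih (f := D 1 f)]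

theorem B_add (hg : Sm g) (hh : Sm h) :
    B k f (fun p => g p + h p) p = B k f g p + B k f h p := by
  induction k generalizing f g h with
  | zero => exact mul_add _ _ _
  | succ k ih =>
    simp only [B, D_eq, dv_add hg.dif hh.dif]
    rw [ih (hg.dv _) (hh.dv _), ih (hg.dv _) (hh.dv _)]
    ring

theorem B_cmul (hg : Sm g) (r : ℝ) : B k f (fun p => r * g p) p = r * B k f g p := by
  induction k generalizing f g with
  | zero => exact mul_left_comm _ _ _
  | succ k ih =>
    simp only [B, D_eq, dv_cmul hg.dif]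
    rw [ih (hg.dv _), ih (hg.dv _)]
    ring

theorem B_zero : B k f (fun _ => 0) p = 0 := by
  have := B_cmul (k := k) (f := f) (p := p) (g := fun _ => 0) contDiff_const 0
  simpa using this

theorem sm_list {α : Type} (L : List α) {F : α → R4 → ℝ} (hF : ∀ t, Sm (F t)) :
    Sm fun p => (L.map fun t => F t p).sum := by
  induction L with
  | nil => exact contDiff_const
  | cons t L ih => exact (hF t).add ih

theorem B_list {α : Type} (L : List α) {F : α → R4 → ℝ} (hF : ∀ t, Sm (F t)) :
    B k f (fun p => (L.map fun t => F t p).sum) p = (L.map fun t => B k f (F t) p).sum := by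
  induction L with
  | nil => exact B_zero
  | cons t L ih =>
    simp only [List.map_cons, List.sum_cons]
    rw [B_add (hF t) (sm_list L hF), ih]

theorem B_sum {ι : Type} (s : Finset ι) {F : ι → R4 → ℝ} (hF : ∀ i, Sm (F i)) :
    B k f (fun p => ∑ i ∈ s, F i p) p = ∑ i ∈ s, B k f (F i) p := by
  classical
  induction s using Finset.induction_on with
  | empty => exact B_zero
  | insert i s hi ih =>
    simp only [Finset.sum_insert hi]
    rw [B_add (hF i) (ContDiff.sum fun i _ => hF i), ih]

theorem D_slice (hf : Sm f) (A : Fin 2) (t : ℝ) (x : X3) :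
    D A f (t, x) = fderiv ℝ (fun x => f (t, x)) x (e A.succ) := by
  rw [show fderiv ℝ (fun x => f (t, x)) x = _ from
    ((hf.dif _).hasFDerivAt.comp x (hasFDerivAt_prodMk_right t x)).fderiv]
  rfl

/-- The jets only depend on the values on the slice. -/
theorem B_congr {g' : R4 → ℝ} {t : ℝ} (hg : Sm g) (hg' : Sm g') (H : ∀ x, g (t, x) = g' (t, x))
    (x : X3) : B k f g (t, x) = B k f g' (t, x) := by
  induction k generalizing f g g' with
  | zero => simp only [B, H]
  | succ k ih =>
    have e : ∀ A y, D A g (t, y) = D A g' (t, y) := fun A y => by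
      rw [D_slice hg, D_slice hg', funext H]
    simp only [B, H]
    rw [ih (hg.D 0) (hg'.D 0) (e 0), ih (hg.D 1) (hg'.D 1) (e 1)]

theorem dv_B (hf : Sm f) (hg : Sm g) (a : R4) :
    dv a (B k f g) p = B k (dv a f) g p + B k f (dv a g) p := by
  induction k generalizing f g with
  | zero => exact congrFun (dv_mul hf.dif hg.dif a) p
  | succ k ih =>
    have e : B (k + 1) f g = fun p => (f p * g p + B k (D 0 f) (D 0 g) p) +
      B k (D 1 f) (D 1 g) p := rfl
    rw [e, dv_add (Sm.dif ((hf.mul hg).add (B_sm (hf.D 0) (hg.D 0)))) (B_sm (hf.D 1) (hg.D 1)).dif,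
      dv_add (Sm.dif (hf.mul hg)) (B_sm (hf.D 0) (hg.D 0)).dif, dv_mul hf.dif hg.dif]
    simp only [B]
    rw [ih (hf.D 0) (hg.D 0), ih (hf.D 1) (hg.D 1)]
    simp only [D_eq, dv_comm hf a, dv_comm hg a]
    ring

theorem dv_Q (hf : Sm f) (a : R4) : dv a (Q k f) p = 2 * B k f (dv a f) p := by
  have e : Q k f = B k f f := rfl
  rw [e, dv_B hf hf, B_comm, two_mul]

theorem Q_succ : Q (k + 1) f p = f p ^ 2 + Q k (D 0 f) p + Q k (D 1 f) p := by
  simp only [Q, B, sq]

theorem Q_nonneg : 0 ≤ Q k f p := by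
  induction k generalizing f with
  | zero => exact mul_self_nonneg _
  | succ k ih => rw [Q_succ]; exact add_nonneg (add_nonneg (sq_nonneg _) ih) ih

theorem N_nonneg : 0 ≤ N k f p := Real.sqrt_nonneg _

theorem N_sq : N k f p ^ 2 = Q k f p := Real.sq_sqrt Q_nonneg

theorem N_le_of {r : ℝ} (hr : 0 ≤ r) (H : Q k f p ≤ r ^ 2) : N k f p ≤ r :=
  Real.sqrt_le_iff.2 ⟨hr, H⟩

theorem Q_mono : Q k f p ≤ Q (k + 1) f p := by
  induction k generalizing f with
  | zero =>
    rw [Q_succ]
    have h0 := Q_nonneg (k := 0) (f := D 0 f) (p := p)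
    have h1 := Q_nonneg (k := 0) (f := D 1 f) (p := p)
    have e : Q 0 f p = f p ^ 2 := (sq _).symm
    linarith
  | succ k ih => rw [Q_succ, Q_succ (k := k + 1)]; linarith [ih (f := D 0 f), ih (f := D 1 f)]

theorem Q_mono' {m : ℕ} (H : k ≤ m) : Q k f p ≤ Q m f p :=
  monotone_nat_of_le_succ (f := fun k => Q k f p) (fun _ => Q_mono) H

theorem N_mono {m : ℕ} (H : k ≤ m) : N k f p ≤ N m f p := Real.sqrt_le_sqrt (Q_mono' H)

theorem N_zero : N 0 f p = |f p| := Real.sqrt_mul_self_eq_abs _

theorem abs_le_N : |f p| ≤ N k f p := N_zero ▸ N_mono (Nat.zero_le k)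

theorem N_D (A : Fin 2) : N k (D A f) p ≤ N (k + 1) f p := by
  refine Real.sqrt_le_sqrt ?_
  have h0 := Q_nonneg (k := k) (f := D 0 f) (p := p)
  have h1 := Q_nonneg (k := k) (f := D 1 f) (p := p)
  rw [Q_succ]
  fin_cases A
  · show Q k (D 0 f) p ≤ _
    nlinarith [sq_nonneg (f p)]
  · show Q k (D 1 f) p ≤ _
    nlinarith [sq_nonneg (f p)]

theorem B_sq : B k f g p ^ 2 ≤ Q k f p * Q k g p := by
  induction k generalizing f g with
  | zero => simp only [Q, B]; nlinarith
  | succ k ih =>
    have key : ∀ x y : Fin 3 → ℝ, (∑ i, x i * y i) ^ 2 ≤ (∑ i, x i ^ 2) * ∑ i, y i ^ 2 :=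
      fun x y => Finset.sum_mul_sq_le_sq_mul_sq _ x y
    have h := key ![|f p|, N k (D 0 f) p, N k (D 1 f) p] ![|g p|, N k (D 0 g) p, N k (D 1 g) p]
    simp only [Fin.sum_univ_three, Matrix.cons_val_zero, Matrix.cons_val_one, Matrix.cons_val,
      N_sq, sq_abs] at h
    rw [Q_succ, Q_succ]
    refine le_trans ?_ h
    have a : ∀ A, |B k (D A f) (D A g) p| ≤ N k (D A f) p * N k (D A g) p := fun A =>
      abs_le_of_sq_le_sq' (by rw [mul_pow, N_sq, N_sq]; exact ih) (mul_nonneg N_nonneg N_nonneg)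
        |> abs_le.2
    refine sq_le_sq' ?_ ?_
    · simp only [B]
      linarith [neg_abs_le (f p * g p), abs_mul (f p) (g p), (abs_le.1 (a 0)).1, (abs_le.1 (a 1)).1]
    · simp only [B]
      linarith [le_abs_self (f p * g p), abs_mul (f p) (g p), (abs_le.1 (a 0)).2,
        (abs_le.1 (a 1)).2]

theorem abs_B : |B k f g p| ≤ N k f p * N k g p :=
  abs_le.2 (abs_le_of_sq_le_sq' (by rw [mul_pow, N_sq, N_sq]; exact B_sq)
    (mul_nonneg N_nonneg N_nonneg))

theorem N_add (hf : Sm f) (hg : Sm g) : N k (fun p => f p + g p) p ≤ N k f p + N k g p := by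
  refine N_le_of (add_nonneg N_nonneg N_nonneg) ?_
  have e : Q k (fun p => f p + g p) p = Q k f p + 2 * B k f g p + Q k g p := by
    unfold Q
    rw [B_add hf hg, B_comm, B_add hf hg, B_comm (f := fun p => f p + g p), B_add hf hg,
      B_comm (f := g) (g := f)]
    ring
  rw [e, add_sq, N_sq, N_sq]
  linarith [le_abs_self (B k f g p), abs_B (k := k) (f := f) (g := g) (p := p)]

theorem N_cmul (hf : Sm f) (r : ℝ) : N k (fun p => r * f p) p = |r| * N k f p := by
  have e : Q k (fun p => r * f p) p = r ^ 2 * Q k f p := by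
    unfold Q
    rw [B_cmul hf, B_comm, B_cmul hf]
    ring
  unfold N
  rw [e, Real.sqrt_mul (sq_nonneg r), Real.sqrt_sq_eq_abs]

theorem N_list {α : Type} (L : List α) {F : α → R4 → ℝ} (hF : ∀ t, Sm (F t)) :
    N k (fun p => (L.map fun t => F t p).sum) p ≤ (L.map fun t => N k (F t) p).sum := by
  induction L with
  | nil =>
    have := N_cmul (k := k) (p := p) (f := fun _ => 0) contDiff_const 0
    simpa using this.le
  | cons t L ih =>
    simp only [List.map_cons, List.sum_cons]
    exact (N_add (hF t) (sm_list L hF)).trans (by gcongr)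

theorem N_mul (hc : Sm c) (hf : Sm f) :
    N k (fun p => c p * f p) p ≤ 3 ^ k * (N k c p * N k f p) := by
  induction k generalizing c f with
  | zero => simp [N_zero, abs_mul]
  | succ k ih =>
    have n0 := mul_nonneg (N_nonneg (k := k + 1) (f := c) (p := p))
      (N_nonneg (k := k + 1) (f := f) (p := p))
    have a : ∀ A, N k (D A fun p => c p * f p) p ≤
        2 * (3 ^ k * (N (k + 1) c p * N (k + 1) f p)) := fun A => by
      rw [D_eq, dv_mul hc.dif hf.dif, two_mul]
      refine (N_add ((hc.dv _).mul hf) (hc.mul (hf.dv _))).trans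
        (add_le_add ((ih (hc.dv _) hf).trans ?_) ((ih hc (hf.dv _)).trans ?_))
      · gcongr
        exacts [N_nonneg, N_nonneg, N_D A, N_mono (Nat.le_succ k)]
      · gcongr
        exacts [N_nonneg, N_nonneg, N_mono (Nat.le_succ k), N_D A]
    have b : |c p * f p| ≤ 3 ^ k * (N (k + 1) c p * N (k + 1) f p) := by
      rw [abs_mul]
      exact (mul_le_mul abs_le_N abs_le_N (abs_nonneg _) N_nonneg).trans
        (le_mul_of_one_le_left n0 (one_le_pow₀ (by norm_num)))
    refine N_le_of (by positivity) ?_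
    rw [Q_succ, ← N_sq, ← N_sq, ← sq_abs, pow_succ 3 k]
    have b2 := pow_le_pow_left₀ (abs_nonneg _) b 2
    have a0 := pow_le_pow_left₀ N_nonneg (a 0) 2
    have a1 := pow_le_pow_left₀ N_nonneg (a 1) 2
    nlinarith

theorem abs_B_mul (hc : Sm c) (hg : Sm g) :
    |B k f (fun p => c p * g p) p| ≤ 3 ^ k * (N k c p * (N k f p * N k g p)) := by
  refine abs_B.trans ((mul_le_mul_of_nonneg_left (N_mul hc hg) N_nonneg).trans (le_of_eq ?_))
  ring

/-- Commutator estimate. -/
theorem comm (hc : Sm c) (hg : Sm g) (A : Fin 2) :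
    |B k f (fun p => c p * D A g p) p - c p * B k f (D A g) p| ≤
      2 * 3 ^ k * (N k c p * (N k f p * N k g p)) := by
  induction k generalizing f g with
  | zero =>
    simp only [B]
    rw [show f p * (c p * D A g p) - c p * (f p * D A g p) = 0 by ring, abs_zero]
    exact mul_nonneg (by norm_num) (mul_nonneg N_nonneg (mul_nonneg N_nonneg N_nonneg))
  | succ k ih =>
    have a : ∀ C, |B k (D C f) (D C fun p => c p * D A g p) p - c p * B k (D C f) (D C (D A g)) p|
        ≤ 3 * 3 ^ k * (N (k + 1) c p * (N (k + 1) f p * N (k + 1) g p)) := fun C => by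
      have e : D C (D A g) = D A (D C g) := dv_comm hg _ _
      rw [D_eq C (fun p => c p * D A g p), dv_mul hc.dif (hg.D A).dif, ← D_eq, ← D_eq, e,
        B_add ((hc.D C).mul (hg.D A)) (hc.mul ((hg.D C).D A)), add_sub_assoc]
      refine (abs_add_le _ _).trans ((add_le_add (abs_B_mul (hc.D C) (hg.D A))
        (ih (hg.D C))).trans ?_)
      have b1 : N k (D C c) p * (N k (D C f) p * N k (D A g) p) ≤
          N (k + 1) c p * (N (k + 1) f p * N (k + 1) g p) := by
        gcongr
        exacts [mul_nonneg N_nonneg N_nonneg, N_nonneg, N_D C, N_nonneg, N_nonneg, N_D C, N_D A]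
      have b2 : N k c p * (N k (D C f) p * N k (D C g) p) ≤
          N (k + 1) c p * (N (k + 1) f p * N (k + 1) g p) := by
        gcongr
        exacts [mul_nonneg N_nonneg N_nonneg, N_nonneg, N_mono (Nat.le_succ k), N_nonneg, N_nonneg,
          N_D C, N_D C]
      have b3 : (0 : ℝ) ≤ 3 ^ k := by positivity
      nlinarith
    simp only [B]
    have a0 := abs_le.1 (a 0)
    have a1 := abs_le.1 (a 1)
    rw [pow_succ 3 k, abs_le]
    constructor <;> nlinarith

/-- The symmetric first order term is a divergence up to lower order terms. -/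
theorem flux_err (hc : Sm c) (hf : Sm f) (hg : Sm g) (A : Fin 2) :
    |B k f (fun p => c p * D A g p) p + B k g (fun p => c p * D A f p) p -
      D A (fun p => c p * B k f g p) p| ≤
      5 * 3 ^ k * (N (k + 1) c p * (N k f p * N k g p)) := by
  rw [D_eq A (fun p => c p * B k f g p), dv_mul hc.dif (B_sm hf hg).dif]
  simp only
  rw [dv_B hf hg, ← D_eq, ← D_eq, ← D_eq, B_comm (f := D A f)]
  have n0 := mul_nonneg (N_nonneg (k := k) (f := f) (p := p)) (N_nonneg (k := k) (f := g) (p := p))
  have m : N k c p * (N k f p * N k g p) ≤ N (k + 1) c p * (N k f p * N k g p) :=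
    mul_le_mul_of_nonneg_right (N_mono (Nat.le_succ k)) n0
  have b3 : (1 : ℝ) ≤ 3 ^ k := one_le_pow₀ (by norm_num)
  have a1 := abs_le.1 (comm (k := k) (f := f) (p := p) hc hg A)
  have a2 := comm (k := k) (f := g) (p := p) hc hf A
  rw [mul_comm (N k g p)] at a2
  have a2 := abs_le.1 a2
  have a3 : |D A c p * B k f g p| ≤ N (k + 1) c p * (N k f p * N k g p) := by
    rw [abs_mul]
    exact mul_le_mul (abs_le_N.trans (N_D A)) abs_B (abs_nonneg _) N_nonneg
  have a3 := abs_le.1 a3
  have n1 := mul_nonneg (N_nonneg (k := k + 1) (f := c) (p := p)) n0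
  have m2 := mul_le_mul_of_nonneg_left m (zero_le_one.trans b3)
  have m3 := mul_le_mul_of_nonneg_right b3 n1
  rw [abs_le]
  constructor <;> nlinarith

end Vale.Agent.P354D
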