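import Vale.Agent.P354D.EZ
import Vale.Agent.P354D.Diff
import Vale.Agent.P354A.Ceq

/-!
The difference estimate for two families of solutions.
-/

open scoped ContDiff
open Set MeasureTheory Filter Topology

namespace Vale.Agent.P354D

open Vale.Agent.P354H Vale.Agent.P354C
open Vale.Agent.P354A (Wt dxl cmp Pb Sol U0 bY cls ex)
open Vale.Agent.P354I (IsBK Fam r2)

theorem N_words {n : ℕ} {f : R4 → ℝ} {p : R4} {c : ℝ}
    (h : ∀ α : List (Fin 3), α.length ≤ n → (0 : Fin 3) ∉ α → |dxl α f p| ≤ c) :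
    N n f p ≤ 2 ^ n * c := by
  induction n generalizing f with
  | zero => rw [N_zero, pow_zero, one_mul]; exact h [] le_rfl (by simp)
  | succ n ih =>
    have h0 : |f p| ≤ c := h [] (Nat.zero_le _) (by simp)
    have c0 := (abs_nonneg _).trans h0
    have a : ∀ A : Fin 2, N n (D A f) p ≤ 2 ^ n * c := fun A => ih fun α hα h' =>
      h (A.succ :: α) (by simpa using hα) (by simpa using ⟨(Fin.succ_ne_zero A).symm, h'⟩)
    have h1 : |f p| ≤ 2 ^ n * c := h0.trans (le_mul_of_one_le_left c0 (one_le_pow₀ one_le_two))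
    refine N_le_of (by positivity) ?_
    rw [Q_succ, ← N_sq, ← N_sq, ← sq_abs, pow_succ 2 n]
    have b2 := pow_le_pow_left₀ (abs_nonneg _) h1 2
    have a0 := pow_le_pow_left₀ N_nonneg (a 0) 2
    have a1 := pow_le_pow_left₀ N_nonneg (a 1) 2
    nlinarith [sq_nonneg (2 ^ n * c)]

theorem dxl_germ (α : List (Fin 3)) {f g : R4 → ℝ} {p : R4} (h : f =ᶠ[𝓝 p] g) :
    dxl α f =ᶠ[𝓝 p] dxl α g := by
  induction α generalizing f g with
  | nil => exact h
  | cons j α ih => exact ih (h.fderiv.mono fun q hq => congrArg (fun L : R4 →L[ℝ] ℝ => L (0, e j)) hq)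

theorem pdl_germ (α : List (Fin 3)) {f g : X3 → ℝ} {z : X3} (h : f =ᶠ[𝓝 z] g) :
    pdl α f =ᶠ[𝓝 z] pdl α g := by
  induction α generalizing f g with
  | nil => exact h
  | cons j α ih => exact ih (h.fderiv.mono fun q hq => congrArg (fun L : X3 →L[ℝ] ℝ => L (e j)) hq)

theorem exists_sml {k I : ℝ} (hk : 0 < k) (hI : 0 < I) : ∃ r θ μ1 : ℝ, 0 < μ1 ∧
    ∀ μ ∈ Icc 0 μ1, Sml k (k / 64) I (k / 8) μ r θ := by
  obtain ⟨θ, θ0, θ1, θ2⟩ : ∃ θ : ℝ, 0 < θ ∧ θ ≤ 2 / I ∧ θ ≤ k / 8 :=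
    ⟨min (2 / I) (k / 8), by positivity, min_le_left _ _, min_le_right _ _⟩
  obtain ⟨r, r0, r1, r2⟩ : ∃ r : ℝ, 0 < r ∧ r ≤ 1 ∧ r ≤ θ / 8000 :=
    ⟨min 1 (θ / 8000), by positivity, min_le_left _ _, min_le_right _ _⟩
  refine ⟨r, θ, min 1 (θ * r ^ 2 / 10 ^ 8), by positivity, fun μ hμ => ?_⟩
  have m1 := hμ.2.trans (min_le_right _ _)
  have m2 : μ / r ^ 2 ≤ θ / 10 ^ 8 := by
    rw [div_le_iff₀ (by positivity)]
    linarith
  have m3 : μ / r ≤ μ / r ^ 2 := div_le_div_of_nonneg_left hμ.1 (by positivity) (by nlinarith)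
  refine ⟨by positivity, hμ.1, hμ.2.trans (min_le_left _ _), r0, r1, θ0, θ1, θ2, by linarith, ?_,
    ?_⟩
  · rw [mul_div_assoc]
    linarith
  · rw [mul_div_assoc]
    linarith

theorem K0_eq (k : ℝ) (i : Ix) : K0 k i = U0 k i := by
  cases i <;> first | rfl | exact (neg_div _ _).symm

theorem lhs_eq (k : ℝ) (U : R4 → Ix → ℝ) (p : R4) (i : Ix) :
    lhs k (fun i p => U p i - K0 k i) p i = res (U p) (dfr U p) i := by
  have e0 : (fun j => U p j - K0 k j + K0 k j) = U p := funext fun j => sub_add_cancel _ _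
  have e1 : ∀ j z, dv z (fun p => U p j - K0 k j) p = dv z (cmp U j) p := fun j z => by
    unfold dv
    rw [fderiv_sub_const]
    rfl
  unfold lhs
  simp only [e0, dt_eq, dx_eq, D_eq, e1]
  congr 1
  funext m j
  fin_cases m
  · exact (P354A.dfr0 U p j).symm
  · exact (P354A.dfr1 U p j).symm
  · exact (P354A.dfra U p 0 j).symm
  · exact (P354A.dfra U p 1 j).symm

theorem bY_le {k A0 : ℝ} {a A : ℝ → ℝ} (hk : 0 < k) (h : Wt k a A A0) (i : Ix) {p : R4}
    (hp : 0 ≤ p.1) :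
    bY k a (cls i) p.1 p.2.1 ≤ alC (wA a p) (wB a p) (cl i) + wE (k / 8) p := by
  have e1 : wA a p = a (p.1 - p.2.1) := by simp [wA, lf_ap, sub_eq_add_neg]
  have e2 : wB a p = a (p.1 + p.2.1) := by simp [wB, lf_ap]
  have e3 : ex k 2 p.1 = wE (k / 8) p := by
    rw [wE_eq, ex]
    congr 1
    ring
  have e4 : ex k 4 p.1 ≤ wE (k / 8) p := by
    rw [wE_eq, ex]
    exact Real.exp_le_exp.2 (by nlinarith)
  have e5 : 0 < wE (k / 8) p := Real.exp_pos _
  have e6 := mul_le_of_le_one_right e5.le (h.le p.2.1)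
  have e7 := mul_le_mul_of_nonneg_right e4 (h.pos p.2.1).le
  rw [e1, e2]
  cases i <;> simp only [cls, cl, bY, alC, e3] <;> linarith

theorem bds_one {k A0 ρ ε δ cb μ T : ℝ} {a A : ℝ → ℝ} {Cb : ℕ → ℝ} {K v : R4 → Ix → ℝ}
    {w0 : X3 → Ix → ℝ} {w : ℕ → R4 → Ix → ℝ} {n : ℕ} (hk : 0 < k) (h : Wt k a A A0)
    (hK : IsBK k ρ Cb K) (hε : 0 ≤ ε) (hw : Fam k a ε δ cb K w0 w) (hμ : ε + |Cb 5| * √ρ ≤ μ)
    (hv : Sol K v T) (hv' : ∀ p : R4, p.1 < T + 1 → v p = w n p) {p : R4} (hp : p.1 ∈ Icc 0 T)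
    (i : Ix) : N 5 (fun p => (K + v) p i - K0 k i) p ≤
      32 * μ * (alC (wA a p) (wB a p) (cl i) + wE (k / 8) p) := by
  have s1 : Sm fun p => K p i - K0 k i := (contDiffOn_univ.1 (hK.smooth i)).sub contDiff_const
  have e : (fun p => (K + v) p i - K0 k i) = fun p => (K p i - K0 k i) + cmp v i p :=
    funext fun p => by simp only [Pi.add_apply, P354A.cmp]; ring
  have g : cmp v i =ᶠ[𝓝 p] cmp (w n) i := by
    filter_upwards [(isOpen_lt continuous_fst continuous_const).mem_nhds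
      (show p.1 < T + 1 by linarith [hp.2])] with q hq
    exact congrFun (hv' q hq) i
  have a1 : N 5 (cmp v i) p ≤ 2 ^ 5 * (ε * bY k a (cls i) p.1 p.2.1) := N_words fun α hα _ => by
    rw [(dxl_germ α g).self_of_nhds]
    exact (hw.out n p hp.1).Y i α hα
  have a2 : N 5 (fun p => K p i - K0 k i) p ≤ 2 ^ 5 * (Cb 5 * √ρ * Real.exp (-k * p.1 / 2)) :=
    N_words fun α hα _ => by
      have := hK.bound 5 p.1 (by linarith [hp.1]) i α hα p.2
      simp only [← K0_eq] at this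
      rwa [show (fun z => K (p.1, z) i - K0 k i) = sl (fun p => K p i - K0 k i) p.1 from rfl,
        P354A.dxl_sl α s1] at this
  have b0 : 0 ≤ alC (wA a p) (wB a p) (cl i) := by
    have := h.pos (lf 1 (-1) p)
    have := h.pos (lf 1 1 p)
    cases cl i <;> simp only [alC, wA, wB] <;> positivity
  have b1 : Real.exp (-k * p.1 / 2) ≤ alC (wA a p) (wB a p) (cl i) + wE (k / 8) p := by
    rw [wE_eq]
    exact (Real.exp_le_exp.2 (by nlinarith [hp.1])).trans (le_add_of_nonneg_left b0)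
  have b2 := mul_le_mul_of_nonneg_left (bY_le hk h i hp.1) hε
  have b3 := mul_le_mul (mul_le_mul_of_nonneg_right (le_abs_self (Cb 5)) (Real.sqrt_nonneg ρ)) b1
    (Real.exp_pos _).le (by positivity)
  have b4 := mul_le_mul_of_nonneg_right hμ ((Real.exp_pos _).le.trans b1)
  rw [e]
  linarith [N_add (k := 5) (p := p) s1 (hv.sm i)]

theorem sgn_sq (b : Bool) : sgn b * sgn b = 1 := by cases b <;> simp [sgn]

theorem vol_box (b : Bool) {x1 x2 : ℝ} (h : x1 ≤ x2) :
    (volume ({x : ℝ | sgn b * x ∈ Icc x1 x2} ×ˢ (Icc (-4 : ℝ) 4 ×ˢ Icc (-4 : ℝ) 4))) =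
      ENNReal.ofReal ((x2 - x1) * 64) := by
  have e : volume {x : ℝ | sgn b * x ∈ Icc x1 x2} = ENNReal.ofReal (x2 - x1) := by
    cases b
    · rw [show {x : ℝ | sgn false * x ∈ Icc x1 x2} = Icc (-x2) (-x1) from
        Set.ext fun x => by simp [sgn, le_neg, neg_le, and_comm], Real.volume_Icc]
      congr 1
      ring
    · rw [show {x : ℝ | sgn true * x ∈ Icc x1 x2} = Icc x1 x2 from Set.ext fun x => by simp [sgn],
        Real.volume_Icc]
  rw [Measure.volume_eq_prod, Measure.prod_prod, Measure.volume_eq_prod, Measure.prod_prod, e,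
    Real.volume_Icc, ← ENNReal.ofReal_mul (by norm_num), ← ENNReal.ofReal_mul (sub_nonneg.2 h)]
  norm_num

/-- **DIFF.** -/
theorem diff : DIFF := by
  intro k a A A0 hk hW ha1
  have hI : 0 < A0 + 1 := by linarith [hW.nn 0, hW.bd 0]
  have ha : Wa a A (k / 64) (A0 + 1) := ⟨ha1, hW.pos, hW.le, hW.even, fun y => by
    obtain ⟨a', h1, h2⟩ := hW.der y
    rwa [h1.deriv], hW.prim, hW.nn, fun y => (hW.bd y).trans (by linarith), hI⟩
  obtain ⟨r, θ, μ1, m0, hs⟩ := exists_sml hk hI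
  have s0 := hs 0 ⟨le_rfl, m0.le⟩
  have C0 : 0 ≤ CZ (A0 + 1) (k / 8) r θ := by
    have := s0.r0
    have := s0.θ0
    unfold CZ
    positivity
  refine ⟨μ1 / 32, by positivity, CZ (A0 + 1) (k / 8) r θ * 32 ^ 2 * (38 * 16 ^ 2 * 64),
    by positivity, ?_⟩
  intro ρ Cb K ε δ cb w0 w0' w w' μ hK hε hw hw' hμ hμ0 b n T x1 R M Z hT hx hM hz hb hZ
  obtain ⟨v, hv, ev⟩ := hw.supp n T
  obtain ⟨v', hv', ev'⟩ := hw'.supp n T
  have μ0 : 0 ≤ μ := le_trans (by positivity) hμ
  have sK : ∀ i, Sm fun p => K p i := fun i => contDiffOn_univ.1 (hK.smooth i)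
  have ed : ∀ i, dl (fun i p => (K + v) p i - K0 k i) (fun i p => (K + v') p i - K0 k i) i =
      fun p => cmp v' i p - cmp v i p := fun i => funext fun p => by
    simp only [dl, Pi.add_apply, P354A.cmp]
    ring
  have hD : Df k T (fun i p => (K + v) p i - K0 k i) fun i p => (K + v') p i - K0 k i :=
    ⟨fun i => ((sK i).add (hv.sm i)).sub contDiff_const,
      fun i => ((sK i).add (hv'.sm i)).sub contDiff_const,
      fun i => ed i ▸ (hv'.cs i).sub (hv.cs i),
      fun p hp i => by rw [lhs_eq, lhs_eq, hv.eq p hp i, hv'.eq p hp i]⟩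
  have c1 : ContDiff ℝ 1 fun y => Real.smoothTransition (R + 2 - y) :=
    Real.smoothTransition.contDiff.comp (contDiff_const.sub contDiff_id)
  obtain ⟨H, k1, k2, k3, k4, k5⟩ := incr hD ha (hs (32 * μ) ⟨by positivity, by linarith⟩)
    (fun p hp i => ⟨bds_one hk hW hK hε hw hμ hv ev hp i, bds_one hk hW hK hε hw' hμ hv' ev' hp i⟩)
    hT c1 (fun y => Real.smoothTransition.nonneg _)
    (fun y y' h => Real.smoothTransition.monotone (by linarith)) (i := cpt b) (ε := -sgn b)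
    (by cases b <;> simp [cpt, sgn, cl]) (by cases b <;> rfl)
  have ea : ∀ y, a (sgn b * y) = a y := fun y => by cases b <;> simp [sgn, hW.even]
  refine ⟨fun y => H (sgn b * y), by fun_prop, ?_, fun y => k3 _, fun y hy φ t ht => ?_, ?_⟩
  · cases b
    · simpa [sgn, Function.comp_def] using k2.comp_homeomorph (Homeomorph.neg ℝ)
    · simpa [sgn] using k2
  · have q := k4 (sgn b * y) φ t ht
    rw [neg_neg, ← mul_assoc, sgn_sq, one_mul, Real.smoothTransition.one_of_one_le (by linarith),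
      ea, ed, one_div_mul_eq_div, div_le_iff₀' (hW.pos y),
      show sgn b * y + -sgn b * t = sgn b * (y - t) by ring] at q
    simp only [P354A.cmp] at q
    rwa [ev _ (by linarith [ht.2]), ev' _ (by linarith [ht.2]), ev _ (by linarith),
      ev' _ (by linarith)] at q
  have e1 : ∫ y, H (sgn b * y) = ∫ y, H y := by
    cases b
    · simpa [sgn] using integral_neg_eq_self H volume
    · simp [sgn]
  rw [e1]
  refine k5.trans ?_
  have Z0 : 0 ≤ Z := (one_div_pos.2 (hW.pos _)).le.trans (hZ x1 ⟨le_rfl, hx⟩)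
  have hχ := cut_lf c1 (fun y => Real.smoothTransition.nonneg _)
    (fun y y' h => Real.smoothTransition.monotone (by linarith)) (ε := - -sgn b)
    (by cases b <;> simp [sgn])
  have mS : MeasurableSet ({x : ℝ | sgn b * x ∈ Icc x1 (R + 2)} ×ˢ
      (Icc (-4 : ℝ) 4 ×ˢ Icc (-4 : ℝ) 4)) :=
    (measurableSet_Icc.preimage (by fun_prop)).prod (measurableSet_Icc.prod measurableSet_Icc)
  have sl0 : ∀ i, sl (fun p => cmp v' i p - cmp v i p) 0 =
      fun y => w' n (0, y) i - w n (0, y) i := fun i => funext fun y => by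
    simp only [sl, P354A.cmp]
    rw [ev _ (by linarith), ev' _ (by linarith)]
  have nb : ∀ i (z : X3) (m : ℝ), (∀ α : List (Fin 3), α.length ≤ 4 → (0 : Fin 3) ∉ α →
      |pdl α (fun y => w' n (0, y) i - w n (0, y) i) z| ≤ m) →
      Q 4 (fun p => cmp v' i p - cmp v i p) (0, z) ≤ (16 * m) ^ 2 := fun i z m h => by
    rw [← N_sq]
    refine pow_le_pow_left₀ N_nonneg ((N_words (c := m) fun α h1 h2 => ?_).trans_eq (by norm_num)) 2
    have := h α h1 h2
    rwa [← sl0, P354A.dxl_sl α ((hv'.sm i).sub (hv.sm i))] at this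
  have b1 := integral_mono (((hD.c1SQ (k := 4)).mul ha.lgZ.th.sm).mul hχ.th.sm |>.int 0)
    ((integrable_indicator_iff mS).2 (integrableOn_const (C := Z * (38 * (16 * M) ^ 2))
      (by rw [vol_box b hx]; exact ENNReal.ofReal_ne_top))) fun z => by
      have e2 : lf 1 (- -sgn b) (0, z) = sgn b * z.1 := by simp [lf_ap]
      have e3 : wZ a (0, z) = 1 / a (sgn b * z.1) := by simp [wZ, lf_ap, ea]
      simp only [e2, e3, SQ, ed]
      by_cases c : z ∈ {x : ℝ | sgn b * x ∈ Icc x1 (R + 2)} ×ˢ (Icc (-4 : ℝ) 4 ×ˢ Icc (-4 : ℝ) 4)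
      · rw [indicator_of_mem c]
        exact (mul_le_of_le_one_left (mul_nonneg (one_div_pos.2 (hW.pos _)).le
          (Finset.sum_nonneg fun _ _ => Q_nonneg)) (Real.smoothTransition.le_one _)).trans
          (mul_le_mul (hZ _ c.1) (sum_le_card fun i => nb i z M fun α h1 h2 =>
            hb i α h1 h2 z c.1.2) (Finset.sum_nonneg fun _ _ => Q_nonneg) Z0)
      rw [indicator_of_notMem c]
      by_cases c2 : R + 2 ≤ sgn b * z.1
      · rw [Real.smoothTransition.zero_of_nonpos (by linarith), zero_mul]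
      have c3 : sgn b * z.1 < x1 ∨ 16 < r2 z := by
        by_contra c4
        rw [not_or, not_lt, not_lt, r2] at c4
        exact c ⟨⟨c4.1, (not_le.1 c2).le⟩,
          ⟨by nlinarith [sq_nonneg z.2.2], by nlinarith [sq_nonneg z.2.2]⟩,
          ⟨by nlinarith [sq_nonneg z.2.1], by nlinarith [sq_nonneg z.2.1]⟩⟩
      have o : IsOpen {z : X3 | sgn b * z.1 < x1 ∨ 16 < r2 z} :=
        (isOpen_lt (f := fun z : X3 => sgn b * z.1) (by fun_prop) continuous_const).union
          (isOpen_lt (g := r2) continuous_const (by unfold r2; fun_prop))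
      refine mul_nonpos_of_nonneg_of_nonpos (Real.smoothTransition.nonneg _)
        (mul_nonpos_of_nonneg_of_nonpos (one_div_pos.2 (hW.pos _)).le
          (Finset.sum_nonpos fun i _ => (nb i z 0 fun α _ _ => ?_).trans_eq (by norm_num)))
      have g : (fun y => w' n (0, y) i - w n (0, y) i) =ᶠ[𝓝 z] (0 : X3 → ℝ) := by
        filter_upwards [o.mem_nhds c3] with y hy
        rw [hz y (hy.imp le_of_lt le_of_lt), sub_self, Pi.zero_apply]
      rw [(pdl_germ α g).self_of_nhds, pdl_zero, Pi.zero_apply, abs_zero]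
  rw [integral_indicator_const _ mS, Measure.real, vol_box b hx,
    ENNReal.toReal_ofReal (by linarith), smul_eq_mul] at b1
  exact (mul_le_mul_of_nonneg_left b1 (by positivity)).trans_eq (by ring)

end Vale.Agent.P354D
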