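import Vale.Agent.P354D.Wt

/-!
The difference system and the pointwise energy identity.
-/

open scoped ContDiff
open Set

namespace Vale.Agent.P354D

open Vale.Agent.P354H Vale.Agent.P354C

noncomputable section

/-- The left side of the equation i for the unknowns u + K0. -/
def lhs (κ : ℝ) (u : Ix → R4 → ℝ) (p : R4) (i : Ix) : ℝ :=
  res (fun j => u j p + K0 κ j) (frd (fun j => u j p + K0 κ j) (fun j => dt (u j) p)
    (fun j => dx 0 (u j) p) fun A j => D A (u j) p) i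

/-- The difference. -/
def dl (u u' : Ix → R4 → ℝ) (i : Ix) (p : R4) : ℝ := u' i p - u i p

/-- Two solutions of the same equation whose difference has compact support. -/
structure Df (κ T : ℝ) (u u' : Ix → R4 → ℝ) : Prop where
  sm : ∀ i, Sm (u i)
  sm' : ∀ i, Sm (u' i)
  cs : ∀ i, HasCompactSupport (dl u u' i)
  eq : ∀ p : R4, p.1 ∈ Icc 0 T → ∀ i, lhs κ u' p i = lhs κ u p i

/-- The coefficients and the four groups of terms. -/
def cf (u u' : Ix → R4 → ℝ) (m : Ix) : Fin 4 → R4 → ℝ := ![u m, u' m, D 0 (u m), D 1 (u m)]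
def bT (u u' : Ix → R4 → ℝ) (i : Ix) (p : R4) : ℝ :=
  cL i * (u' .b1 p * D 0 (dl u u' i) p + u' .b2 p * D 1 (dl u u' i) p)
def aT (u u' : Ix → R4 → ℝ) (i : Ix) (p : R4) : ℝ :=
  ((ang i).map fun t => (t.1 : ℝ) * (u' (Pix t.2.1 0) p * D 0 (dl u u' t.2.2) p +
    u' (Pix t.2.1 1) p * D 1 (dl u u' t.2.2) p)).sum
def lT (u u' : Ix → R4 → ℝ) (i : Ix) (p : R4) : ℝ :=
  ((lin i).map fun t => (t.1 : ℝ) * dl u u' t.2 p).sum
def rT (u u' : Ix → R4 → ℝ) (i : Ix) (p : R4) : ℝ :=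
  ((terms i).map fun t => (t.1 : ℝ) * (cf u u' t.2.2.1 t.2.2.2 p * dl u u' t.2.1 p)).sum

variable {κ T : ℝ} {u u' : Ix → R4 → ℝ} {k : ℕ} {p : R4}

theorem Df.smd (h : Df κ T u u') (i : Ix) : Sm (dl u u' i) := (h.sm' i).sub (h.sm i)

theorem Df.smc (h : Df κ T u u') (m : Ix) (j : Fin 4) : Sm (cf u u' m j) := by
  fin_cases j
  exacts [h.sm m, h.sm' m, (h.sm m).D 0, (h.sm m).D 1]

theorem Df.sm2 (h : Df κ T u u') (m m' j : Ix) :
    Sm fun p => u' m p * D 0 (dl u u' j) p + u' m' p * D 1 (dl u u' j) p :=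
  ((h.sm' m).mul ((h.smd j).D 0)).add ((h.sm' m').mul ((h.smd j).D 1))

theorem Df.smb (h : Df κ T u u') (i : Ix) : Sm (bT u u' i) := contDiff_const.mul (h.sm2 _ _ _)

theorem Df.sma (h : Df κ T u u') (i : Ix) : Sm (aT u u' i) :=
  sm_list _ fun _ => contDiff_const.mul (h.sm2 _ _ _)

theorem Df.sml (h : Df κ T u u') (i : Ix) : Sm (lT u u' i) :=
  sm_list _ fun _ => contDiff_const.mul (h.smd _)

theorem Df.smr (h : Df κ T u u') (i : Ix) : Sm (rT u u' i) :=
  sm_list _ fun _ => contDiff_const.mul ((h.smc _ _).mul (h.smd _))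

theorem Df.dv_dl (h : Df κ T u u') (i : Ix) (a : R4) :
    dv a (dl u u' i) p = dv a (u' i) p - dv a (u i) p := by
  unfold dv dl
  rw [fderiv_fun_sub ((h.sm' i).dif p) ((h.sm i).dif p)]
  rfl

theorem Df.eqn (h : Df κ T u u') (hp : p.1 ∈ Icc 0 T) (i : Ix) :
    (cN i + cL i : ℝ) * dt (dl u u' i) p + (cL i - cN i : ℝ) * dx 0 (dl u u' i) p =
      -1 * (bT u u' i p + aT u u' i p + κ / 2 * dmp i * dl u u' i p + lT u u' i p + rT u u' i p) := by
  have e := res_diff κ (fun j => u j p) (fun j => u' j p) (fun j => dt (u j) p)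
    (fun j => dt (u' j) p) (fun j => dx 0 (u j) p) (fun j => dx 0 (u' j) p)
    (fun A j => D A (u j) p) (fun A j => D A (u' j) p) i
  have e0 := sub_eq_zero.2 (h.eq p hp i)
  unfold lhs at e0
  rw [e0] at e
  have c : ∀ m (j : Fin 4), ![u m p, u' m p, D 0 (u m) p, D 1 (u m) p] j = cf u u' m j p :=
    fun m j => by fin_cases j <;> rfl
  simp only [c] at e
  simp only [bT, aT, lT, rT, D_eq, dt_eq, dx_eq, h.dv_dl] at e ⊢
  unfold dl
  linarith

theorem list_le {α : Type} (L : List α) (c : α → ℤ) (F : α → ℝ) {M : ℝ} {n : ℤ} (hM : 0 ≤ M)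
    (h : ∀ t ∈ L, F t ≤ |(c t : ℝ)| * M) (hn : (L.map fun t => |c t|).sum ≤ n) :
    (L.map F).sum ≤ n * M := by
  refine le_trans ?_ (mul_le_mul_of_nonneg_right (Int.cast_le.2 hn) hM)
  clear hn
  induction L with
  | nil => simp
  | cons t L ih =>
    simp only [List.map_cons, List.sum_cons, Int.cast_add, Int.cast_abs, add_mul]
    exact add_le_add (h t List.mem_cons_self) (ih fun s hs => h s (List.mem_cons_of_mem _ hs))

/-- The pointwise identity for one component with the weight w. -/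
theorem Df.point (h : Df κ T u u') (hp : p.1 ∈ Icc 0 T) (i : Ix) {w : R4 → ℝ} (hw : Th w)
    (w0 : 0 ≤ w p) :
    dt (fun p => (cN i + cL i : ℝ) * (w p * Q k (dl u u' i) p)) p +
      dx 0 (fun p => (cL i - cN i : ℝ) * (w p * Q k (dl u u' i) p)) p +
      D 0 (fun p => cL i * (w p * (u' .b1 p * Q k (dl u u' i) p))) p +
      D 1 (fun p => cL i * (w p * (u' .b2 p * Q k (dl u u' i) p))) p ≤
    ((cN i + cL i : ℝ) * dt w p + (cL i - cN i : ℝ) * dx 0 w p - κ * dmp i * w p) *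
        Q k (dl u u' i) p - 2 * w p * B k (dl u u' i) (aT u u' i) p -
      2 * w p * B k (dl u u' i) (lT u u' i) p - 2 * w p * B k (dl u u' i) (rT u u' i) p +
      5 * 3 ^ k * (cL i * w p * ((N (k + 1) (u' .b1) p + N (k + 1) (u' .b2) p) *
        Q k (dl u u' i) p)) := by
  have s := h.smd i
  have q : Differentiable ℝ (Q k (dl u u' i)) := (Q_sm s).dif
  have q1 : Differentiable ℝ fun p => u' .b1 p * Q k (dl u u' i) p := (h.sm' _).dif.mul q
  have q2 : Differentiable ℝ fun p => u' .b2 p * Q k (dl u u' i) p := (h.sm' _).dif.mul q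
  rw [dt_eq, dx_eq, D_eq, D_eq, dv_cmul (hw.dif.fun_mul q), dv_cmul (hw.dif.fun_mul q),
    dv_cmul (hw.dif.fun_mul q1), dv_cmul (hw.dif.fun_mul q2), dv_mul hw.dif q, dv_mul hw.dif q,
    dv_mul hw.dif q1, dv_mul hw.dif q2]
  simp only
  rw [dv_Q s, dv_Q s]
  simp only [← D_eq, hw.ang, zero_mul, zero_add]
  rw [← dt_eq, ← dt_eq, ← dx_eq, ← dx_eq]
  have f1 := (abs_le.1 (flux_err (k := k) (p := p) (h.sm' .b1) s s 0)).1
  have f2 := (abs_le.1 (flux_err (k := k) (p := p) (h.sm' .b2) s s 1)).1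
  rw [← sq, N_sq] at f1 f2
  have sd : Sm fun p => κ / 2 * dmp i * dl u u' i p := contDiff_const.mul s
  have e : (cN i + cL i : ℝ) * B k (dl u u' i) (dt (dl u u' i)) p +
      (cL i - cN i : ℝ) * B k (dl u u' i) (dx 0 (dl u u' i)) p =
      -1 * (cL i * (B k (dl u u' i) (fun p => u' .b1 p * D 0 (dl u u' i) p) p +
        B k (dl u u' i) (fun p => u' .b2 p * D 1 (dl u u' i) p) p) +
        B k (dl u u' i) (aT u u' i) p + κ / 2 * dmp i * Q k (dl u u' i) p +
        B k (dl u u' i) (lT u u' i) p + B k (dl u u' i) (rT u u' i) p) := by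
    have s1 : Sm (dt (dl u u' i)) := s.dv _
    have s2 : Sm (dx 0 (dl u u' i)) := s.dv _
    have s3 := (h.smb i).add (h.sma i)
    have s4 := s3.add sd
    have s5 := s4.add (h.sml i)
    rw [← B_cmul s1, ← B_cmul s2, ← B_add (contDiff_const.mul s1) (contDiff_const.mul s2)]
    obtain ⟨t, x⟩ := p
    rw [B_congr ((contDiff_const.mul s1).add (contDiff_const.mul s2))
      (contDiff_const.mul (s5.add (h.smr i))) (fun y => h.eqn (p := (t, y)) hp i),
      B_cmul (s5.add (h.smr i)), B_add s5 (h.smr i), B_add s4 (h.sml i), B_add s3 sd,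
      B_add (h.smb i) (h.sma i), B_cmul s]
    have e2 : bT u u' i = fun p =>
      cL i * (u' .b1 p * D 0 (dl u u' i) p + u' .b2 p * D 1 (dl u u' i) p) := rfl
    rw [e2, B_cmul (h.sm2 _ _ _), B_add ((h.sm' _).mul (s.D 0)) ((h.sm' _).mul (s.D 1))]
    rfl
  have c0 : (0 : ℝ) ≤ cL i := by rcases cNL i with ⟨-, e⟩ | ⟨-, e⟩ | ⟨-, e⟩ <;> simp [e]
  have g1 := mul_le_mul_of_nonneg_left f1 (mul_nonneg c0 w0)
  have g2 := mul_le_mul_of_nonneg_left f2 (mul_nonneg c0 w0)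
  have e' := congrArg (fun z => 2 * w p * z) e
  have eQ : B k (dl u u' i) (dl u u' i) = Q k (dl u u' i) := rfl
  rw [eQ] at g1 g2
  linarith

theorem Df.B_lT (h : Df κ T u u') (i : Ix) : B k (dl u u' i) (lT u u' i) p =
    ((lin i).map fun t => (t.1 : ℝ) * B k (dl u u' i) (dl u u' t.2) p).sum := by
  have e : lT u u' i = fun p => ((lin i).map fun t => (t.1 : ℝ) * dl u u' t.2 p).sum := rfl
  rw [e, B_list _ fun _ => contDiff_const.mul (h.smd _)]
  simp only [B_cmul (h.smd _)]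

theorem Df.B_rT (h : Df κ T u u') (i : Ix) : B k (dl u u' i) (rT u u' i) p =
    ((terms i).map fun t => (t.1 : ℝ) *
      B k (dl u u' i) (fun p => cf u u' t.2.2.1 t.2.2.2 p * dl u u' t.2.1 p) p).sum := by
  have e : rT u u' i = fun p => ((terms i).map fun t => (t.1 : ℝ) *
    (cf u u' t.2.2.1 t.2.2.2 p * dl u u' t.2.1 p)).sum := rfl
  rw [e, B_list _ fun _ => contDiff_const.mul ((h.smc _ _).mul (h.smd _))]
  simp only [B_cmul ((h.smc _ _).mul (h.smd _))]

theorem Df.B_aT (h : Df κ T u u') (i : Ix) : B k (dl u u' i) (aT u u' i) p =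
    ((ang i).map fun t => (t.1 : ℝ) *
      (B k (dl u u' i) (fun p => u' (Pix t.2.1 0) p * D 0 (dl u u' t.2.2) p) p +
        B k (dl u u' i) (fun p => u' (Pix t.2.1 1) p * D 1 (dl u u' t.2.2) p) p)).sum := by
  have e : aT u u' i = fun p => ((ang i).map fun t => (t.1 : ℝ) *
    (u' (Pix t.2.1 0) p * D 0 (dl u u' t.2.2) p + u' (Pix t.2.1 1) p * D 1 (dl u u' t.2.2) p)).sum :=
    rfl
  rw [e, B_list _ fun _ => contDiff_const.mul (h.sm2 _ _ _)]
  simp only [B_cmul (h.sm2 _ _ _),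
    B_add ((h.sm' _).mul ((h.smd _).D 0)) ((h.sm' _).mul ((h.smd _).D 1))]

/-- The pointwise bounds of the two solutions. -/
def Bds (a : ℝ → ℝ) (c μ T : ℝ) (u u' : Ix → R4 → ℝ) : Prop :=
  ∀ p : R4, p.1 ∈ Icc 0 T → ∀ i,
    N 5 (u i) p ≤ μ * (alC (wA a p) (wB a p) (cl i) + wE c p) ∧
    N 5 (u' i) p ≤ μ * (alC (wA a p) (wB a p) (cl i) + wE c p)

theorem Bds.cf {a : ℝ → ℝ} {c μ : ℝ} (h : Bds a c μ T u u') (hp : p.1 ∈ Icc 0 T) (hk : k ≤ 4)
    (m : Ix) (j : Fin 4) : N k (cf u u' m j) p ≤ μ * (alC (wA a p) (wB a p) (cl m) + wE c p) := by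
  fin_cases j
  · exact (N_mono (by omega)).trans (h p hp m).1
  · exact (N_mono (by omega)).trans (h p hp m).2
  · exact ((N_D 0).trans (N_mono (by omega))).trans (h p hp m).1
  · exact ((N_D 1).trans (N_mono (by omega))).trans (h p hp m).1

theorem Bds.P {a : ℝ → ℝ} {c μ : ℝ} (h : Bds a c μ T u u') (hp : p.1 ∈ Icc 0 T) (hk : k ≤ 5)
    (b A : Fin 2) : N k (u' (Pix b A)) p ≤ μ * wE c p := by
  have := (N_mono hk).trans (h p hp (Pix b A)).2
  rwa [cl_P, alC, zero_add] at this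

end

end Vale.Agent.P354D
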