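import Vale.Agent.P354C.Defs

/-!
Tables for the difference of two solutions of the reduced system.
-/

namespace Vale.Agent.P354D

open Vale.Agent.P354C

/-- The classes of the unknowns. -/
inductive Cls
  | V | Vd | U | Ud | P | O
  deriving DecidableEq

/-- The class of an unknown. -/
def cl : Ix → Cls
  | .b1 | .b2 | .om | .r0 | .a1 | .a2 => .V
  | .X11 | .X12 | .X21 | .X22 => .Vd
  | .omb | .ab1 | .ab2 => .U
  | .Y11 | .Y12 | .Y21 | .Y22 => .Ud
  | .rho | .sig => .P
  | _ => .O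

/-- The curvature components. -/
def psi : Ix → Bool
  | .a1 | .a2 | .be1 | .be2 | .rho | .sig | .bb1 | .bb2 | .ab1 | .ab2 => true
  | _ => false

/-- The component A of the angular frame vector a, and of b. -/
def Pix : Fin 2 → Fin 2 → Ix := ![![.P11, .P12], ![.P21, .P22]]
def bix : Fin 2 → Ix := ![.b1, .b2]

def ang (i : Ix) : List (ℤ × Fin 2 × Ix) := angN i ++ angL i
def lin (i : Ix) : List (ℤ × Ix) := linN i ++ linL i
def quad (i : Ix) : List (ℤ × Ix × Ix) := quadN i ++ quadL i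

/-- The terms (c, j, m, kind) of order zero: c times the difference j times a coefficient made
from the unknown m. -/
def terms (i : Ix) : List (ℤ × Ix × Ix × Fin 4) :=
  [(cL i, .b1, i, 2), (cL i, .b2, i, 3)] ++
    ((ang i).flatMap fun t => [(t.1, Pix t.2.1 0, t.2.2, 2), (t.1, Pix t.2.1 1, t.2.2, 3)]) ++
    (quad i).flatMap fun t => [(t.1, t.2.1, t.2.2, 1), (t.1, t.2.2, t.2.1, 0)]

/-- The damping in units of half the rate. -/
def dmp : Ix → ℕ
  | .b1 | .b2 | .om | .r0 | .a1 | .a2 | .omb | .ab1 | .ab2 => 0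
  | .X11 | .X12 | .X21 | .X22 | .Y11 | .Y12 | .Y21 | .Y22 => 2
  | .be1 | .be2 | .rho | .sig | .bb1 | .bb2 => 4
  | _ => 1

/-- The constant background. -/
noncomputable def K0 (κ : ℝ) : Ix → ℝ
  | .om | .omb => -(κ / 2)
  | _ => 0

/-- The null structure: equation i, difference j, coefficient m. -/
def OK (i j m : Cls) : Bool :=
  match j with
  | .O => m == .O
  | .P => true
  | .V | .Vd => i == .Vd || m == .U || m == .Ud || m == .P || m == .O
  | .U | .Ud => i == .Ud || m == .V || m == .Vd || m == .P || m == .O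

/-- The structure of the linear terms. -/
def OKl (i j : Cls) : Bool :=
  match j with
  | .O => false
  | .P => true
  | .V | .Vd => i == .Vd
  | .U | .Ud => i == .Ud

theorem terms_ok (i : Ix) (hi : cl i ≠ .O) :
    ∀ t ∈ terms i, t.1 = 0 ∨ OK (cl i) (cl t.2.1) (cl t.2.2.1) = true := by
  cases i <;> first | exact absurd rfl hi | decide

theorem lin_ok (i : Ix) (hi : cl i ≠ .O) : ∀ t ∈ lin i, OKl (cl i) (cl t.2) = true := by
  cases i <;> first | exact absurd rfl hi | decide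

theorem lin_psi (i : Ix) : ∀ t ∈ lin i, psi i = false ∧ psi t.2 = true := by
  cases i <;> decide

theorem ang_psi (i : Ix) : ∀ t ∈ ang i, psi i = true := by
  cases i <;> decide

theorem cl_P (a A : Fin 2) : cl (Pix a A) = .O := by
  revert a A
  decide

theorem cl_b (A : Fin 2) : cl (bix A) = .V := by
  revert A
  decide

theorem cnt_terms (i : Ix) : ((terms i).map fun t => |t.1|).sum ≤ 200 := by
  cases i <;> decide +kernel

theorem cnt_lin (i : Ix) : ((lin i).map fun t => |t.1|).sum ≤ 4 := by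
  cases i <;> decide

theorem cnt_ang (i : Ix) : ((ang i).map fun t => |t.1|).sum ≤ 4 := by
  cases i <;> decide

theorem cNL (i : Ix) : (cN i = 1 ∧ cL i = 0) ∨ (cN i = 0 ∧ cL i = 1) ∨ (cN i = 1 ∧ cL i = 1) := by
  cases i <;> decide

theorem cl_V {i : Ix} (h : cl i = .V) : cN i = 1 ∧ cL i = 0 ∧ dmp i = 0 := by
  cases i <;> first | decide | exact absurd h (by decide)

theorem cl_U {i : Ix} (h : cl i = .U) : cN i = 0 ∧ cL i = 1 ∧ dmp i = 0 := by
  cases i <;> first | decide | exact absurd h (by decide)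

theorem cl_dmp {i : Ix} (h : cl i = .Vd ∨ cl i = .Ud ∨ cl i = .P) : 2 ≤ dmp i := by
  cases i <;> first | decide | exact absurd h (by decide)

theorem sum_Ix (f : Ix → ℝ) : ∑ i, f i = (Ix.all.map f).sum :=
  List.sum_toFinset f (by decide : Ix.all.Nodup)

theorem card_Ix : Fintype.card Ix = 38 := by decide

/-- The angular part is symmetric. -/
theorem ang_symm (F : Fin 2 → Ix → Ix → ℝ) :
    ∑ i, ((ang i).map fun t => (t.1 : ℝ) * F t.2.1 i t.2.2).sum =
      ∑ i, ((ang i).map fun t => (t.1 : ℝ) * F t.2.1 t.2.2 i).sum := by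
  simp only [sum_Ix, Ix.all, ang, angN, angL, List.map_cons, List.map_nil, List.sum_cons,
    List.sum_nil, List.cons_append, List.nil_append, List.append_nil]
  push_cast
  ring

theorem damp (κ : ℝ) (d : Ix → ℝ) (i : Ix) :
    ((quad i).map fun t => (t.1 : ℝ) * (d t.2.1 * K0 κ t.2.2 + K0 κ t.2.1 * d t.2.2)).sum =
      κ / 2 * dmp i * d i := by
  cases i <;> simp only [quad, quadN, quadL, K0, dmp, List.map_cons, List.map_nil, List.sum_cons,
    List.sum_nil, List.cons_append, List.nil_append, List.append_nil] <;> push_cast <;> ring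

theorem K0_P (κ : ℝ) (a A : Fin 2) : K0 κ (Pix a A) = 0 := by
  fin_cases a <;> fin_cases A <;> rfl

/-- Frame derivatives from the coordinate derivatives T (time), X, Y 0, Y 1. -/
def frd (U T X : Ix → ℝ) (Y : Fin 2 → Ix → ℝ) : Fin 4 → Ix → ℝ :=
  ![fun i => T i + X i + U .b1 * Y 0 i + U .b2 * Y 1 i, fun i => T i - X i,
    fun i => U .P11 * Y 0 i + U .P12 * Y 1 i, fun i => U .P21 * Y 0 i + U .P22 * Y 1 i]

theorem frd_ai (U T X : Ix → ℝ) (Y : Fin 2 → Ix → ℝ) (a : Fin 2) (j : Ix) :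
    frd U T X Y (ai a) j = U (Pix a 0) * Y 0 j + U (Pix a 1) * Y 1 j := by
  fin_cases a <;> rfl

/-- The difference of the left sides. -/
theorem res_diff (κ : ℝ) (u u' T T' X X' : Ix → ℝ) (Y Y' : Fin 2 → Ix → ℝ) (i : Ix) :
    res (fun j => u' j + K0 κ j) (frd (fun j => u' j + K0 κ j) T' X' Y') i -
      res (fun j => u j + K0 κ j) (frd (fun j => u j + K0 κ j) T X Y) i =
    (cN i + cL i : ℝ) * (T' i - T i) + (cL i - cN i : ℝ) * (X' i - X i) +
      cL i * (u' .b1 * (Y' 0 i - Y 0 i) + u' .b2 * (Y' 1 i - Y 1 i)) +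
      ((ang i).map fun t => (t.1 : ℝ) * (u' (Pix t.2.1 0) * (Y' 0 t.2.2 - Y 0 t.2.2) +
        u' (Pix t.2.1 1) * (Y' 1 t.2.2 - Y 1 t.2.2))).sum +
      κ / 2 * dmp i * (u' i - u i) + ((lin i).map fun t => (t.1 : ℝ) * (u' t.2 - u t.2)).sum +
      ((terms i).map fun t => (t.1 : ℝ) *
        (![u t.2.2.1, u' t.2.2.1, Y 0 t.2.2.1, Y 1 t.2.2.1] t.2.2.2 * (u' t.2.1 - u t.2.1))).sum := by
  have a1 : ∀ L : List (ℤ × Fin 2 × Ix), angS (frd (fun j => u' j + K0 κ j) T' X' Y') L -
      angS (frd (fun j => u j + K0 κ j) T X Y) L =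
      (L.map fun t => (t.1 : ℝ) * (u' (Pix t.2.1 0) * (Y' 0 t.2.2 - Y 0 t.2.2) +
        u' (Pix t.2.1 1) * (Y' 1 t.2.2 - Y 1 t.2.2))).sum +
      ((L.flatMap fun t => [(t.1, Pix t.2.1 0, t.2.2, (2 : Fin 4)),
        (t.1, Pix t.2.1 1, t.2.2, 3)]).map fun t => (t.1 : ℝ) *
        (![u t.2.2.1, u' t.2.2.1, Y 0 t.2.2.1, Y 1 t.2.2.1] t.2.2.2 *
          (u' t.2.1 - u t.2.1))).sum := fun L => by
    induction L with
    | nil => simp [angS]
    | cons t L ih =>
      simp only [angS, List.map_cons, List.sum_cons, List.flatMap_cons, List.cons_append,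
        List.nil_append, frd_ai, K0_P, Matrix.cons_val] at ih ⊢
      linarith
  have a2 : ∀ L : List (ℤ × Ix), linS (fun j => u' j + K0 κ j) L - linS (fun j => u j + K0 κ j) L =
      (L.map fun t => (t.1 : ℝ) * (u' t.2 - u t.2)).sum := fun L => by
    induction L with
    | nil => simp [linS]
    | cons t L ih =>
      simp only [linS, List.map_cons, List.sum_cons] at ih ⊢
      linarith
  have a3 : ∀ L : List (ℤ × Ix × Ix), quadS (fun j => u' j + K0 κ j) L -
      quadS (fun j => u j + K0 κ j) L =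
      (L.map fun t => (t.1 : ℝ) * ((u' t.2.1 - u t.2.1) * K0 κ t.2.2 +
        K0 κ t.2.1 * (u' t.2.2 - u t.2.2))).sum +
      ((L.flatMap fun t => [(t.1, t.2.1, t.2.2, (1 : Fin 4)), (t.1, t.2.2, t.2.1, 0)]).map
        fun t => (t.1 : ℝ) * (![u t.2.2.1, u' t.2.2.1, Y 0 t.2.2.1, Y 1 t.2.2.1] t.2.2.2 *
          (u' t.2.1 - u t.2.1))).sum := fun L => by
    induction L with
    | nil => simp [quadS]
    | cons t L ih =>
      simp only [quadS, List.map_cons, List.sum_cons, List.flatMap_cons, List.cons_append,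
        List.nil_append, Matrix.cons_val_zero, Matrix.cons_val_one] at ih ⊢
      linarith
  have b1 := a1 (ang i)
  have b2 := a2 (lin i)
  have b3 := a3 (quad i)
  rw [damp κ (fun j => u' j - u j) i] at b3
  have c1 : ∀ dU : Fin 4 → Ix → ℝ, angS dU (ang i) = angS dU (angN i) + angS dU (angL i) :=
    fun dU => by simp [ang, angS]
  have c2 : ∀ U : Ix → ℝ, linS U (lin i) = linS U (linN i) + linS U (linL i) :=
    fun dU => by simp [lin, linS]
  have c3 : ∀ U : Ix → ℝ, quadS U (quad i) = quadS U (quadN i) + quadS U (quadL i) :=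
    fun dU => by simp [quad, quadS]
  rw [c1, c1] at b1
  rw [c2, c2] at b2
  rw [c3, c3] at b3
  have k1 : K0 κ .b1 = 0 := rfl
  have k2 : K0 κ .b2 = 0 := rfl
  simp only [terms, List.map_append, List.sum_append, List.map_cons, List.sum_cons, List.map_nil,
    List.sum_nil, res, resN, resL, Matrix.cons_val]
  have f0 : ∀ (U T X : Ix → ℝ) (Y : Fin 2 → Ix → ℝ), frd U T X Y 0 i =
    T i + X i + U .b1 * Y 0 i + U .b2 * Y 1 i := fun _ _ _ _ => rfl
  have f1 : ∀ (U T X : Ix → ℝ) (Y : Fin 2 → Ix → ℝ), frd U T X Y 1 i = T i - X i :=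
    fun _ _ _ _ => rfl
  rw [f0, f0, f1, f1, k1, k2]
  linarith

end Vale.Agent.P354D
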