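import Vale.Agent.P354D.Jet
import Vale.Agent.P354D.Alg

/-!
The weights of the energy estimates.
-/

open scoped ContDiff
open Set

namespace Vale.Agent.P354D

open Vale.Agent.P354H Vale.Agent.P354C

noncomputable section

/-- The weight a with a bounded primitive Aa. -/
structure Wa (a Aa : ℝ → ℝ) (δ I : ℝ) : Prop where
  sm : ContDiff ℝ 1 a
  pos : ∀ y, 0 < a y
  le : ∀ y, a y ≤ 1
  even : ∀ y, a (-y) = a y
  der : ∀ y, |deriv a y| ≤ δ * a y
  prim : ∀ y, HasDerivAt Aa (a y) y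
  nn : ∀ y, 0 ≤ Aa y
  bd : ∀ y, Aa y ≤ I
  Ipos : 0 < I

/-- The linear function s tau + r x. -/
def lf (s r : ℝ) : R4 →L[ℝ] ℝ :=
  s • ContinuousLinearMap.fst ℝ ℝ X3 +
    r • (ContinuousLinearMap.fst ℝ ℝ (ℝ × ℝ)).comp (ContinuousLinearMap.snd ℝ ℝ X3)

theorem lf_ap (s r : ℝ) (p : R4) : lf s r p = s * p.1 + r * p.2.1 := rfl

theorem dv_lf {f : ℝ → ℝ} {f' s r : ℝ} {p : R4} (h : HasDerivAt f f' (lf s r p)) (w : R4) :
    dv w (fun q => f (lf s r q)) p = f' * lf s r w := by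
  unfold dv
  rw [show fderiv ℝ (fun q => f (lf s r q)) p = _ from
    (h.comp_hasFDerivAt p (lf s r).hasFDerivAt).fderiv]
  rfl

theorem lf_t (s r : ℝ) : lf s r (1, 0) = s := by simp [lf_ap]
theorem lf_x (s r : ℝ) : lf s r (0, e 0) = r := by simp [lf_ap, e]
theorem lf_D (s r : ℝ) (A : Fin 2) : lf s r (0, e A.succ) = 0 := by
  fin_cases A <;> simp [lf_ap, e]

/-- A function of class C1 which does not depend on the angles. -/
structure Th (w : R4 → ℝ) : Prop where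
  sm : ContDiff ℝ 1 w
  ang : ∀ A p, D A w p = 0

theorem Th.dif {w : R4 → ℝ} (h : Th w) : Differentiable ℝ w := h.sm.differentiable one_ne_zero

theorem th_lf {f : ℝ → ℝ} (hf : ContDiff ℝ 1 f) (s r : ℝ) : Th fun q => f (lf s r q) :=
  ⟨hf.comp (lf s r).contDiff, fun A p => by
    rw [D_eq, dv_lf (hf.differentiable one_ne_zero _).hasDerivAt, lf_D, mul_zero]⟩

theorem Th.mul {w w' : R4 → ℝ} (h : Th w) (h' : Th w') : Th fun p => w p * w' p :=
  ⟨h.sm.mul h'.sm, fun A p => by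
    rw [D_eq, dv_mul h.dif h'.dif]
    simp only [← D_eq, h.ang, h'.ang, mul_zero, zero_mul, add_zero]⟩

theorem Th.add {w w' : R4 → ℝ} (h : Th w) (h' : Th w') : Th fun p => w p + w' p :=
  ⟨h.sm.add h'.sm, fun A p => by
    rw [D_eq, dv_add h.dif h'.dif]
    simp only [← D_eq, h.ang, h'.ang, add_zero]⟩

theorem th_const (r : ℝ) : Th fun _ => r := ⟨contDiff_const, fun A p => by rw [D_eq, dv_const]⟩

theorem dv_inv {w : R4 → ℝ} (h : Differentiable ℝ w) {p : R4} (h0 : w p ≠ 0) (z : R4) :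
    dv z (fun p => 1 / w p) p = -(1 / w p) ^ 2 * dv z w p := by
  unfold dv
  have := ((hasDerivAt_inv h0).comp_hasFDerivAt p (h p).hasFDerivAt).fderiv
  simp only [one_div]
  rw [show fderiv ℝ (fun p => (w p)⁻¹) p = _ from this]
  simp

theorem Th.inv {w : R4 → ℝ} (h : Th w) (h0 : ∀ p, w p ≠ 0) : Th fun p => 1 / w p :=
  ⟨contDiff_const.div h.sm h0, fun A p => by
    rw [D_eq, dv_inv h.dif (h0 p), ← D_eq, h.ang, mul_zero]⟩

/-- A positive weight with bounded logarithmic derivative. -/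
structure Lg (L : ℝ) (w : R4 → ℝ) : Prop where
  th : Th w
  pos : ∀ p, 0 < w p
  der : ∀ p, |dt w p| + |dx 0 w p| ≤ L * w p

theorem lg_lf {f : ℝ → ℝ} {δ : ℝ} (hf : ContDiff ℝ 1 f) (h0 : ∀ y, 0 < f y)
    (h1 : ∀ y, |deriv f y| ≤ δ * f y) (s r : ℝ) : Lg ((|s| + |r|) * δ) fun q => f (lf s r q) :=
  ⟨th_lf hf s r, fun _ => h0 _, fun p => by
    rw [dt_eq, dx_eq, dv_lf (hf.differentiable one_ne_zero _).hasDerivAt,
      dv_lf (hf.differentiable one_ne_zero _).hasDerivAt, lf_t, lf_x, abs_mul, abs_mul]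
    have := mul_le_mul_of_nonneg_right (h1 (lf s r p)) (add_nonneg (abs_nonneg s) (abs_nonneg r))
    nlinarith⟩

theorem Lg.mono {L L' : ℝ} {w : R4 → ℝ} (h : Lg L w) (H : L ≤ L') : Lg L' w :=
  ⟨h.th, h.pos, fun p => (h.der p).trans (mul_le_mul_of_nonneg_right H (h.pos p).le)⟩

theorem Lg.add {L : ℝ} {w w' : R4 → ℝ} (h : Lg L w) (h' : Lg L w') : Lg L fun p => w p + w' p :=
  ⟨h.th.add h'.th, fun p => add_pos (h.pos p) (h'.pos p), fun p => by
    rw [dt_eq, dx_eq, dv_add h.th.dif h'.th.dif, dv_add h.th.dif h'.th.dif]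
    simp only [← dt_eq, ← dx_eq]
    linarith [abs_add_le (dt w p) (dt w' p), abs_add_le (dx 0 w p) (dx 0 w' p), h.der p, h'.der p]⟩

theorem Lg.mul {L L' : ℝ} {w w' : R4 → ℝ} (h : Lg L w) (h' : Lg L' w') :
    Lg (L + L') fun p => w p * w' p :=
  ⟨h.th.mul h'.th, fun p => mul_pos (h.pos p) (h'.pos p), fun p => by
    rw [dt_eq, dx_eq, dv_mul h.th.dif h'.th.dif, dv_mul h.th.dif h'.th.dif]
    simp only [← dt_eq, ← dx_eq]
    have a1 := abs_add_le (dt w p * w' p) (w p * dt w' p)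
    have a2 := abs_add_le (dx 0 w p * w' p) (w p * dx 0 w' p)
    rw [abs_mul, abs_mul, abs_of_pos (h.pos p), abs_of_pos (h'.pos p)] at a1 a2
    have b1 := mul_le_mul_of_nonneg_right (h.der p) (h'.pos p).le
    have b2 := mul_le_mul_of_nonneg_left (h'.der p) (h.pos p).le
    nlinarith⟩

theorem Lg.inv {L : ℝ} {w : R4 → ℝ} (h : Lg L w) : Lg L fun p => 1 / w p :=
  ⟨h.th.inv fun p => (h.pos p).ne', fun p => one_div_pos.2 (h.pos p), fun p => by
    have h0 := h.pos p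
    rw [dt_eq, dx_eq, dv_inv h.th.dif h0.ne', dv_inv h.th.dif h0.ne', abs_mul, abs_mul, abs_neg,
      abs_of_nonneg (sq_nonneg _), ← mul_add, ← dt_eq, ← dx_eq]
    refine (mul_le_mul_of_nonneg_left (h.der p) (sq_nonneg _)).trans (le_of_eq ?_)
    field_simp⟩

/-- The functions a(u), a(v), exp (-c tau), 1 / a(x). -/
def wA (a : ℝ → ℝ) (p : R4) : ℝ := a (lf 1 (-1) p)
def wB (a : ℝ → ℝ) (p : R4) : ℝ := a (lf 1 1 p)
def wE (c : ℝ) (p : R4) : ℝ := Real.exp (lf (-c) 0 p)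
def wZ (a : ℝ → ℝ) (p : R4) : ℝ := 1 / a (lf 0 1 p)

/-- The ghost factor. -/
def gh (Aa : ℝ → ℝ) (I c r : ℝ) (p : R4) : ℝ := (2 + -(1 / I) * Aa (lf 1 r p)) + wE c p

/-- The weights. -/
def om (a Aa : ℝ → ℝ) (I c : ℝ) : Cls → R4 → ℝ
  | .V, p => gh Aa I c (-1) p * (1 / wB a p)
  | .U, p => gh Aa I c 1 p * (1 / wA a p)
  | k, p => gC (wA a p) (wB a p) (wE c p) k

variable {a Aa : ℝ → ℝ} {δ I c : ℝ}

theorem Wa.dnn (h : Wa a Aa δ I) : 0 ≤ δ :=
  nonneg_of_mul_nonneg_left ((abs_nonneg _).trans (h.der 0)) (h.pos 0)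

theorem wE_eq (c : ℝ) (p : R4) : wE c p = Real.exp (-c * p.1) := by simp [wE, lf_ap]

theorem Wa.rg (h : Wa a Aa δ I) (hc : 0 ≤ c) {p : R4} (hp : 0 ≤ p.1) :
    Rg (wA a p) (wB a p) (wE c p) :=
  ⟨h.pos _, h.le _, h.pos _, h.le _, Real.exp_pos _, by
    rw [wE_eq, Real.exp_le_one_iff]; nlinarith⟩

theorem Wa.lgA (h : Wa a Aa δ I) : Lg (2 * δ) (wA a) := by
  have := lg_lf h.sm h.pos h.der 1 (-1)
  norm_num at this
  exact this

theorem Wa.lgB (h : Wa a Aa δ I) : Lg (2 * δ) (wB a) := by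
  have := lg_lf h.sm h.pos h.der 1 1
  norm_num at this
  exact this

theorem Wa.lgZ (h : Wa a Aa δ I) : Lg δ (wZ a) := by
  have := (lg_lf h.sm h.pos h.der 0 1).inv
  rw [abs_zero, abs_one, zero_add, one_mul] at this
  exact this

theorem lgE (hc : 0 ≤ c) : Lg c (wE c) := by
  have := lg_lf (f := Real.exp) (δ := 1) Real.contDiff_exp Real.exp_pos
    (fun y => by rw [Real.deriv_exp, abs_of_pos (Real.exp_pos y), one_mul]) (-c) 0
  rw [abs_neg, abs_of_nonneg hc, abs_zero, add_zero, mul_one] at this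
  exact this

theorem Wa.lg_g (h : Wa a Aa δ I) (hc : 0 ≤ c) {k : Cls} (hk : k ≠ .O) :
    Lg (4 * δ + c) fun p => gC (wA a p) (wB a p) (wE c p) k := by
  have d := h.dnn
  have l1 : Lg (2 * δ + c) fun p => wA a p + wE c p :=
    (h.lgA.mono (by linarith)).add ((lgE hc).mono (by linarith))
  have l2 : Lg (2 * δ + c) fun p => wB a p + wE c p :=
    (h.lgB.mono (by linarith)).add ((lgE hc).mono (by linarith))
  have l3 : Lg (4 * δ + c) fun p => (wA a p + wE c p) / wB a p := by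
    simpa only [mul_one_div] using (l1.mul h.lgB.inv).mono (L' := 4 * δ + c) (by linarith)
  have l4 : Lg (4 * δ + c) fun p => (wB a p + wE c p) / wA a p := by
    simpa only [mul_one_div] using (l2.mul h.lgA.inv).mono (L' := 4 * δ + c) (by linarith)
  cases k
  exacts [l3, l3, l4, l4, ((h.lgB.mul l1).inv.mono (by linarith)).add
    ((h.lgA.mul l2).inv.mono (by linarith)), absurd rfl hk]

theorem Wa.sm_prim (h : Wa a Aa δ I) : ContDiff ℝ 1 Aa := by
  have e : deriv Aa = a := funext fun y => (h.prim y).deriv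
  exact contDiff_one_iff_deriv.2 ⟨fun y => (h.prim y).differentiableAt, e ▸ h.sm.continuous⟩

theorem Wa.th_gh (h : Wa a Aa δ I) (hc : 0 ≤ c) (r : ℝ) : Th (gh Aa I c r) :=
  ((th_const 2).add ((th_const _).mul (th_lf h.sm_prim 1 r))).add (lgE hc).th

theorem Wa.th_om (h : Wa a Aa δ I) (hc : 0 ≤ c) (k : Cls) : Th (om a Aa I c k) := by
  cases k
  · exact (h.th_gh hc _).mul h.lgB.inv.th
  · exact (h.lg_g hc (k := .Vd) (by decide)).th
  · exact (h.th_gh hc _).mul h.lgA.inv.th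
  · exact (h.lg_g hc (k := .Ud) (by decide)).th
  · exact (h.lg_g hc (k := .P) (by decide)).th
  · exact th_const 0

theorem Wa.gh_mem (h : Wa a Aa δ I) (hc : 0 ≤ c) (r : ℝ) {p : R4} (hp : 0 ≤ p.1) :
    0 ≤ gh Aa I c r p ∧ gh Aa I c r p ≤ 3 := by
  have h1 := (h.rg hc hp).E0
  have h2 := (h.rg hc hp).E1
  have h3 : 1 / I * Aa (lf 1 r p) ≤ 1 := by
    rw [one_div_mul_eq_div, div_le_one h.Ipos]
    exact h.bd _
  have h4 : 0 ≤ 1 / I * Aa (lf 1 r p) := mul_nonneg (one_div_pos.2 h.Ipos).le (h.nn _)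
  unfold gh
  constructor <;> linarith

theorem Wa.om_le (h : Wa a Aa δ I) (hc : 0 ≤ c) (k : Cls) {p : R4} (hp : 0 ≤ p.1) :
    0 ≤ om a Aa I c k p ∧ om a Aa I c k p ≤ 3 * oC (wA a p) (wB a p) (wE c p) k := by
  have r := h.rg hc hp
  have o := r.o_nn k
  cases k
  · exact ⟨mul_nonneg (h.gh_mem hc _ hp).1 o, mul_le_mul_of_nonneg_right (h.gh_mem hc _ hp).2 o⟩
  · exact ⟨o, le_mul_of_one_le_left o (by norm_num)⟩
  · exact ⟨mul_nonneg (h.gh_mem hc _ hp).1 o, mul_le_mul_of_nonneg_right (h.gh_mem hc _ hp).2 o⟩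
  · exact ⟨o, le_mul_of_one_le_left o (by norm_num)⟩
  · exact ⟨o, le_mul_of_one_le_left o (by norm_num)⟩
  · exact ⟨o, le_mul_of_one_le_left o (by norm_num)⟩

theorem Wa.ghost (h : Wa a Aa δ I) (hc : 0 ≤ c) {r : ℝ} (hr : r * r = 1) (p : R4) :
    dt (fun p => gh Aa I c r p * (1 / a (lf 1 (-r) p))) p +
      r * dx 0 (fun p => gh Aa I c r p * (1 / a (lf 1 (-r) p))) p =
      -(2 / I * a (lf 1 r p) + c * wE c p) * (1 / a (lf 1 (-r) p)) := by
  have t1 := th_lf h.sm 1 (-r)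
  have t2 := t1.inv fun p => (h.pos _).ne'
  have t3 := th_lf h.sm_prim 1 r
  have g : ∀ z, dv z (gh Aa I c r) p =
      -(1 / I) * (a (lf 1 r p) * lf 1 r z) + wE c p * lf (-c) 0 z := fun z => by
    have e : gh Aa I c r = fun p => (2 + -(1 / I) * Aa (lf 1 r p)) + wE c p := rfl
    rw [e, dv_add ((th_const 2).add ((th_const _).mul t3)).dif (lgE hc).th.dif,
      dv_add (differentiable_const _) ((th_const _).mul t3).dif, dv_const, dv_cmul t3.dif]
    simp only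
    rw [dv_lf (h.prim _), zero_add]
    exact congrArg _ (dv_lf (Real.hasDerivAt_exp _) z)
  rw [dt_eq, dx_eq, dv_mul (h.th_gh hc r).dif t2.dif, dv_mul (h.th_gh hc r).dif t2.dif]
  simp only
  rw [g, g, dv_inv t1.dif (h.pos _).ne', dv_inv t1.dif (h.pos _).ne',
    dv_lf (h.sm.differentiable one_ne_zero _).hasDerivAt,
    dv_lf (h.sm.differentiable one_ne_zero _).hasDerivAt, lf_t, lf_t, lf_t, lf_x, lf_x, lf_x]
  linear_combination (-(1 / I) * a (lf 1 r p) * (1 / a (lf 1 (-r) p)) +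
    gh Aa I c r p * (1 / a (lf 1 (-r) p)) ^ 2 * deriv a (lf 1 (-r) p)) * hr

/-- The good term. -/
theorem Wa.good (h : Wa a Aa δ I) (hc : 0 ≤ c) {κ θ : ℝ} (h1 : θ ≤ 2 / I) (h2 : θ ≤ c)
    (h3 : 8 * δ + 3 * c ≤ 2 * κ) {i : Ix} (hi : cl i ≠ .O) {p : R4} (hp : 0 ≤ p.1) :
    (cN i + cL i : ℝ) * dt (om a Aa I c (cl i)) p + (cL i - cN i : ℝ) * dx 0 (om a Aa I c (cl i)) p -
      κ * dmp i * om a Aa I c (cl i) p ≤ -θ * gC (wA a p) (wB a p) (wE c p) (cl i) := by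
  have r := h.rg hc hp
  have key : ∀ {x y : ℝ}, 0 < x → 0 < y →
      -(2 / I * x + c * wE c p) * (1 / y) ≤ -θ * ((x + wE c p) / y) := fun hx hy => by
    rw [mul_one_div, ← mul_div_assoc]
    gcongr
    nlinarith [mul_le_mul_of_nonneg_right h1 hx.le, mul_le_mul_of_nonneg_right h2 r.E0.le]
  by_cases v : cl i = .V
  · obtain ⟨e1, e2, e3⟩ := cl_V v
    have g := h.ghost hc (r := -1) (by norm_num) p
    rw [neg_neg] at g
    rw [v, e1, e2, e3]
    have k := key r.A0 r.B0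
    have e : om a Aa I c .V = fun p => gh Aa I c (-1) p * (1 / a (lf 1 1 p)) := rfl
    rw [e]
    simp only [gC, wA, wB] at k ⊢
    push_cast
    linarith
  by_cases u : cl i = .U
  · obtain ⟨e1, e2, e3⟩ := cl_U u
    have g := h.ghost hc (r := 1) (by norm_num) p
    rw [u, e1, e2, e3]
    have k := key r.B0 r.A0
    have e : om a Aa I c .U = fun p => gh Aa I c 1 p * (1 / a (lf 1 (-1) p)) := rfl
    rw [e]
    simp only [gC, wA, wB] at k ⊢
    push_cast
    linarith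
  have e : om a Aa I c (cl i) = fun p => gC (wA a p) (wB a p) (wE c p) (cl i) := by
    revert v u
    cases cl i <;> intro v u <;> first | rfl | exact absurd rfl v | exact absurd rfl u
  have d2 : (2 : ℝ) ≤ dmp i := by
    have : 2 ≤ dmp i := cl_dmp (by
      revert v u hi
      cases cl i <;> simp)
    exact_mod_cast this
  have l := h.lg_g hc hi
  have l1 := l.der p
  have l0 := (l.pos p).le
  have d := h.dnn
  rw [e]
  set T := dt (fun p => gC (wA a p) (wB a p) (wE c p) (cl i)) p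
  set X := dx 0 (fun p => gC (wA a p) (wB a p) (wE c p) (cl i)) p
  have k1 := mul_le_mul_of_nonneg_right (mul_le_mul_of_nonneg_left d2 (show 0 ≤ κ by linarith)) l0
  have k2 := mul_le_mul_of_nonneg_right (show 2 * (4 * δ + c) + θ ≤ κ * 2 by linarith) l0
  have k3 : (cN i + cL i : ℝ) * T + (cL i - cN i : ℝ) * X ≤ 2 * (|T| + |X|) := by
    rcases cNL i with ⟨e1, e2⟩ | ⟨e1, e2⟩ | ⟨e1, e2⟩ <;> rw [e1, e2] <;> push_cast <;>
      linarith [le_abs_self T, le_abs_self X, neg_abs_le X, abs_nonneg T, abs_nonneg X]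
  simp only at l1 l0 k1 k2 ⊢
  nlinarith

theorem Wa.shift (h : Wa a Aa δ I) (x : ℝ) {t : ℝ} (ht : 0 ≤ t) :
    a x ≤ Real.exp (δ * t) * a (x + t) := by
  have d : ∀ s, HasDerivAt (fun s => Real.exp (δ * s) * a (x + s))
      (Real.exp (δ * s) * (δ * 1) * a (x + s) + Real.exp (δ * s) * (deriv a (x + s) * 1)) s :=
    fun s => ((hasDerivAt_id s).const_mul δ).exp.mul
      ((h.sm.differentiable one_ne_zero _).hasDerivAt.comp s ((hasDerivAt_id s).const_add x))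
  have m : Monotone fun s => Real.exp (δ * s) * a (x + s) := monotone_of_deriv_nonneg
    (fun s => (d s).differentiableAt) fun s => by
      rw [(d s).deriv]
      have := (abs_le.1 (h.der (x + s))).1
      nlinarith [Real.exp_pos (δ * s)]
  simpa using m ht

theorem Wa.sgm_le (h : Wa a Aa δ I) {p : R4} (hp : 0 ≤ p.1) :
    sgm (wA a p) (wB a p) (wE c p) ≤ 2 * Real.exp (-(c - δ) * p.1) * wZ a p := by
  have k : ∀ y, a p.2.1 ≤ Real.exp (δ * p.1) * a y → 1 / a y ≤ Real.exp (δ * p.1) * wZ a p :=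
    fun y hy => by
      simp only [wZ, lf_ap, zero_mul, one_mul, zero_add]
      rw [mul_one_div, div_le_div_iff₀ (h.pos _) (h.pos _), one_mul]
      exact hy
  have k1 : 1 / wA a p ≤ Real.exp (δ * p.1) * wZ a p := k _ (by
    have := h.shift (-p.2.1) hp
    rw [h.even] at this
    simpa [lf_ap, add_comm] using this)
  have k2 : 1 / wB a p ≤ Real.exp (δ * p.1) * wZ a p := k _ (by
    simpa [lf_ap, add_comm] using h.shift p.2.1 hp)
  have e : Real.exp (-(c - δ) * p.1) = wE c p * Real.exp (δ * p.1) := by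
    rw [wE_eq, ← Real.exp_add]
    congr 1
    ring
  have := mul_le_mul_of_nonneg_left (add_le_add k1 k2) (Real.exp_pos (lf (-c) 0 p)).le
  rw [e]
  unfold sgm
  unfold wE at this ⊢
  linarith

end

end Vale.Agent.P354D
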